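import Crest.Agent.R286.Un

/-!
# Row 286: the algorithm and its running time  (helper94)
-/

set_option autoImplicit false

namespace Crest.Agent.R286

open Function Crest.Agent.Lib.PolyTime Crest.Enc

/-- triples of jobs -/
abbrev T3 : Type := ℕ × ℕ × ℕ
/-- descriptions: last slot; lower generators and size of the universe; three atoms -/
abbrev Desc : Type := T3 × (T3 × T3) × (T3 × T3)
/-- spare symbol, list of all symbols, order relation -/
abbrev Cx : Type := ℕ × List ℕ × List (ℕ × ℕ)

/-- precedence test -/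
def rel (R : List (ℕ × ℕ)) (u v : ℕ) : Bool := R.contains (u, v)
/-- number of predecessors -/
def cnt (c : Cx) (v : ℕ) : ℕ := (c.2.1.filter fun u => rel c.2.2 u v).length
/-- the linear extension -/
def piLt (c : Cx) (u v : ℕ) : Bool :=
  Nat.blt (cnt c u) (cnt c v) || (cnt c u == cnt c v && Nat.blt u v)
/-- membership in an atom -/
def inAb (c : Cx) (z : ℕ) (A : T3) : Bool :=
  (A.1 == c.1 || (rel c.2.2 z A.1 || rel c.2.2 z A.2.1)) && (A.2.2 == c.1 || piLt c z A.2.2)
/-- membership in a described set -/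
def inDb (c : Cx) (D : Desc) (z : ℕ) : Bool :=
  Nat.blt z D.2.1.1.2.2 && ((z == D.1.1 || (z == D.1.2.1 || z == D.1.2.2)) ||
    ((D.2.1.1.1 == c.1 || (rel c.2.2 D.2.1.1.1 z || rel c.2.2 D.2.1.1.2.1 z)) &&
      ((inAb c z D.2.1.2 || (inAb c z D.2.2.1 || inAb c z D.2.2.2)) &&
        !(rel c.2.2 D.1.1 z || (rel c.2.2 D.1.2.1 z || rel c.2.2 D.1.2.2 z)))))
/-- a one-slot schedule -/
def leaf (c : Cx) (S : T3) : List (List ℕ) :=
  bif ([S.1, S.2.1, S.2.2].all fun u => c.2.1.contains u &&
      [S.1, S.2.1, S.2.2].all fun v => !rel c.2.2 u v) &&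
    (!(S.1 == S.2.1) && (!(S.1 == S.2.2) && !(S.2.1 == S.2.2)))
  then [[S.1, S.2.1, S.2.2]] else []
/-- may two schedules be concatenated to one for the described set? -/
def okJoin (c : Cx × Desc) (o1 o2 : List ℕ) : Bool :=
  (c.1.2.1.all fun v => (o1.contains v || o2.contains v) == inDb c.1 c.2 v) &&
    o2.all fun u => o1.all fun v => !(u == v) && !rel c.1.2.2 u v
/-- a schedule for the described set made of two table entries -/
def node (c : Cx) (tb : List (List ℕ)) (D : Desc) : Option (List ℕ) :=
  tb.findSome? fun o1 => tb.findSome? fun o2 =>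
    bif okJoin (c, D) o1 o2 then some (o1 ++ o2) else none
/-- one round of the dynamic programme -/
def round (c : Cx × List Desc) (tb : List (List ℕ)) : List (List ℕ) :=
  c.2.flatMap fun D => leaf c.1 D.1 ++ (node c.1 tb D).toList
/-- the final table -/
def table (c : Cx × List Desc) : List (List ℕ) := c.1.2.1.foldl (fun tb _ => round c tb) []
/-- does the entry contain all real jobs? -/
def covers (n : ℕ) (J o : List ℕ) : Bool := J.all fun v => !Nat.blt v n || o.contains v
/-- the shortest entry containing all real jobs -/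
def best (n : ℕ) (J : List ℕ) (tb : List (List ℕ)) : List ℕ :=
  tb.foldl (fun b o => bif covers n J o && (b.isEmpty || Nat.blt o.length b.length) then o else b)
    []
/-- the output -/
def out (n : ℕ) (J o : List ℕ) : List Bool :=
  natCode n ++ (J.filter fun v => Nat.blt v n).flatMap fun v => natCode (div3 (o.idxOf v) + 1)
/-- the number coded at the start of `x` -/
def findN (x : List Bool) (I : List ℕ) : ℕ :=
  (I.filter fun k => natCode k ++ x.drop (natCode k).length == x).headD 0
/-- the edges -/
def edges (n : ℕ) (bits : List Bool) (JJ : List (ℕ × ℕ)) : List (ℕ × ℕ) :=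
  JJ.filter fun p => Nat.blt p.1 n && (Nat.blt p.2 n && ((dropMul bits p.1 n).drop p.2).headD false)
/-- one step of Warshall's algorithm -/
def wstep (JJ R : List (ℕ × ℕ)) (k : ℕ) : List (ℕ × ℕ) :=
  JJ.filter fun p => rel R p.1 p.2 || (rel R p.1 k && rel R k p.2)
/-- transitive closure -/
def closure (n : ℕ) (bits : List Bool) (J : List ℕ × List (ℕ × ℕ)) : List (ℕ × ℕ) :=
  J.1.foldl (wstep J.2) (edges n bits J.2)
/-- all triples -/
def triples (J : List ℕ) : List T3 := prodL J (prodL J J)
/-- all descriptions -/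
def descs (J : List ℕ) : List Desc :=
  prodL (triples J) (prodL (prodL (triples J) (triples J)) (prodL (triples J) (triples J)))
/-- the symbols -/
def syms (n : ℕ) : List ℕ := List.range (n + n + n + 1)
/-- the context of an instance -/
def ctx (n : ℕ) (bits : List Bool) : Cx :=
  (n + n + n, syms n, closure n bits (syms n, prodL (syms n) (syms n)))
/-- the chosen entry -/
def sol (n : ℕ) (bits : List Bool) : List ℕ :=
  best n (syms n) (table (ctx n bits, descs (syms n)))
/-- the number of jobs -/
def numJ (x : List Bool) : ℕ := findN x (List.range x.length)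
/-- the algorithm -/
def alg (x : List Bool) : List Bool :=
  out (numJ x) (syms (numJ x)) (sol (numJ x) (x.drop (natCode (numJ x)).length))

/-! ### Table entries -/

/-- correct entries -/
def Good (c : Cx) (o : List ℕ) : Prop :=
  o.Nodup ∧ (∀ v ∈ o, v ∈ c.2.1) ∧ 3 ∣ o.length ∧
    ∀ u ∈ o, ∀ v ∈ o, rel c.2.2 u v = true → o.idxOf u / 3 < o.idxOf v / 3

theorem good_leaf {c : Cx} {S : T3} {o : List ℕ} (h : o ∈ leaf c S) : Good c o := by
  unfold leaf at h
  rw [Bool.cond_eq_ite] at h
  split_ifs at h with hc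
  · rw [List.mem_singleton] at h
    subst h
    simp only [Bool.and_eq_true, List.all_eq_true, List.contains_iff_mem, Bool.not_eq_true',
      beq_eq_false_iff_ne] at hc
    refine ⟨by simp [hc.2], fun v hv => (hc.1 v hv).1, by simp, fun u hu v hv k => ?_⟩
    rw [(hc.1 u hu).2 v hv] at k
    cases k
  · simp at h

theorem node_some {c : Cx} {tb : List (List ℕ)} {D : Desc} {o : List ℕ}
    (h : node c tb D = some o) :
    ∃ o1 ∈ tb, ∃ o2 ∈ tb, okJoin (c, D) o1 o2 = true ∧ o = o1 ++ o2 := by
  obtain ⟨o1, h1, h⟩ := List.exists_of_findSome?_eq_some h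
  obtain ⟨o2, h2, h⟩ := List.exists_of_findSome?_eq_some h
  refine ⟨o1, h1, o2, h2, ?_⟩
  cases e : okJoin (c, D) o1 o2 <;> simp_all

theorem good_join {c : Cx} {D : Desc} {o1 o2 : List ℕ} (h1 : Good c o1) (h2 : Good c o2)
    (h : okJoin (c, D) o1 o2 = true) : Good c (o1 ++ o2) := by
  simp only [okJoin, Bool.and_eq_true, List.all_eq_true, Bool.not_eq_true',
    beq_eq_false_iff_ne] at h
  have hd : ∀ u ∈ o2, u ∉ o1 := fun u hu hu' => (h.2 u hu u hu').1 rfl
  obtain ⟨k, hk⟩ := h1.2.2.1
  refine ⟨List.nodup_append.2 ⟨h1.1, h2.1, fun a ha b hb e => hd b hb (e ▸ ha)⟩, ?_, ?_, ?_⟩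
  · intro v hv
    rcases List.mem_append.1 hv with hv | hv
    · exact h1.2.1 v hv
    · exact h2.2.1 v hv
  · rw [List.length_append]; exact dvd_add h1.2.2.1 h2.2.2.1
  · intro u hu v hv k
    rcases List.mem_append.1 hu with hu | hu <;> rcases List.mem_append.1 hv with hv | hv
    · rw [List.idxOf_append_of_mem hu, List.idxOf_append_of_mem hv]
      exact h1.2.2.2 u hu v hv k
    · rw [List.idxOf_append_of_mem hu, List.idxOf_append_of_notMem (hd v hv)]
      have := List.idxOf_lt_length_of_mem hu
      omega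
    · rw [(h.2 u hu v hv).2] at k
      cases k
    · rw [List.idxOf_append_of_notMem (hd u hu), List.idxOf_append_of_notMem (hd v hv)]
      have := h2.2.2.2 u hu v hv k
      omega

theorem good_round {c : Cx × List Desc} {tb : List (List ℕ)} (h : ∀ o ∈ tb, Good c.1 o) :
    ∀ o ∈ round c tb, Good c.1 o := by
  intro o ho
  obtain ⟨D, -, ho⟩ := List.mem_flatMap.1 ho
  rcases List.mem_append.1 ho with ho | ho
  · exact good_leaf ho
  · obtain ⟨o1, h1, o2, h2, k, rfl⟩ := node_some (Option.mem_toList.1 ho)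
    exact good_join (h o1 h1) (h o2 h2) k

theorem length_round (c : Cx × List Desc) (tb : List (List ℕ)) :
    (round c tb).length ≤ 2 * c.2.length := by
  unfold round
  generalize c.2 = l
  induction l with
  | nil => simp
  | cons D l ih =>
    have h1 : (leaf c.1 D.1).length ≤ 1 := by
      unfold leaf
      rw [Bool.cond_eq_ite]
      split_ifs <;> simp
    have h2 : (node c.1 tb D).toList.length ≤ 1 := Option.length_toList_le
    simp only [List.flatMap_cons, List.length_append, List.length_cons]
    omega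

theorem Good.esize_le {c : Cx} {o : List ℕ} (h : Good c o) : esize o ≤ esize c.2.1 := by
  obtain ⟨l, hl, hs⟩ := List.subperm_of_subset h.1 h.2.1
  rw [← esize_perm hl]
  exact esize_sublist hs

/-! ### Running times -/

variable {d : ℕ}

@[fun_prop] theorem rel_q : Q (d + 2) fun p : List (ℕ × ℕ) × ℕ × ℕ => rel p.1 p.2.1 p.2.2 := by
  unfold rel; fun_prop

@[fun_prop] theorem cnt_q : Q (d + 3) fun p : Cx × ℕ => cnt p.1 p.2 := by
  unfold cnt; fun_prop

@[fun_prop] theorem piLt_q : Q (d + 3) fun p : Cx × ℕ × ℕ => piLt p.1 p.2.1 p.2.2 := by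
  unfold piLt; fun_prop

@[fun_prop] theorem inAb_q : Q (d + 3) fun p : Cx × ℕ × T3 => inAb p.1 p.2.1 p.2.2 := by
  unfold inAb; fun_prop

@[fun_prop] theorem inDb_q : Q (d + 3) fun p : Cx × Desc × ℕ => inDb p.1 p.2.1 p.2.2 := by
  unfold inDb; fun_prop

@[fun_prop] theorem leaf_q : Q (d + 4) fun p : Cx × T3 => leaf p.1 p.2 := by
  unfold leaf; fun_prop

@[fun_prop] theorem okJoin_q :
    Q (d + 4) fun p : (Cx × Desc) × List ℕ × List ℕ => okJoin p.1 p.2.1 p.2.2 := by
  unfold okJoin; fun_prop

@[fun_prop] theorem node_q :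
    Q (d + 6) fun p : Cx × List (List ℕ) × Desc => node p.1 p.2.1 p.2.2 := by
  unfold node; fun_prop

theorem round_td : TD 15 fun p : (Cx × List Desc) × List (List ℕ) => round p.1 p.2 := by
  have h : Q 6 fun p : ((Cx × List Desc) × List (List ℕ)) × Desc =>
      leaf p.1.1.1 p.2.1 ++ (node p.1.1.1 p.1.2 p.2).toList := by fun_prop
  exact (flatMap_aux (d := 5) (e := 0) (by fun_prop) h.1 h.2 (by omega) (by omega)).1

theorem table_deg : TD 33 table ∧ SD 2 table := by
  have hB : Bd 2 fun c : Cx × List Desc => 2 * esize c * (esize c + 1) + 1 :=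
    ((SD.id'.cmul 2).mul (SD.id'.add (Bd.const 1))).add (Bd.const 1)
  have hsz : ∀ (c : Cx × List Desc) i,
      esize ((c.1.2.1.take i).foldl (fun tb _ => round c tb) []) ≤
        2 * esize c * (esize c + 1) + 1 := by
    intro c i
    obtain ⟨h1, h2⟩ := foldl_take_inv
      (fun tb : List (List ℕ) => (∀ o ∈ tb, Good c.1 o) ∧ tb.length ≤ 2 * c.2.length)
      (fun tb _ => round c tb) c.1.2.1 [] (by simp)
      (fun tb _ _ h => ⟨good_round h.1, length_round c tb⟩) i
    have e1 := esize_prod c
    have e2 := esize_prod c.1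
    have e3 := esize_prod c.1.2
    have e4 := length_lt_esize c.2
    refine (esize_list_le (B := esize c) fun o ho => (h1 o ho).esize_le.trans (by omega)).trans ?_
    exact Nat.add_le_add_right (Nat.mul_le_mul_right _ (by omega)) _
  have q : Q 33 fun c : Cx × List Desc => c.1.2.1 := by fun_prop
  refine ⟨TD.foldl (d := 15) (s := 1) (f := fun c tb (_ : ℕ) => round c tb) _ q.1
    (q.2.up (by omega)) (Q.const []).1
    (round_td.compQ (g := fun p : (Cx × List Desc) × List (List ℕ) × ℕ => (p.1, p.2.1))
      (by fun_prop)) hB (by omega) hsz, hB.mono fun c => ?_⟩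
  have := hsz c c.1.2.1.length
  rwa [List.take_length] at this

@[fun_prop] theorem covers_q :
    Q (d + 3) fun p : ℕ × List ℕ × List ℕ => covers p.1 p.2.1 p.2.2 := by
  unfold covers; fun_prop

theorem best_q : Q 4 fun p : ℕ × List ℕ × List (List ℕ) => best p.1 p.2.1 p.2.2 :=
  Q.foldl_grow (f := fun (p : ℕ × List ℕ × List (List ℕ)) (b o : List ℕ) =>
    bif covers p.1 p.2.1 o && (b.isEmpty || Nat.blt o.length b.length) then o else b) 0
    (by fun_prop) (by fun_prop) (by fun_prop) fun a c x => by
      cases covers a.1 a.2.1 x && (c.isEmpty || Nat.blt x.length c.length) <;> simp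

theorem out_td : TD 20 fun p : ℕ × List ℕ × List ℕ => out p.1 p.2.1 p.2.2 := by
  have h : Q 2 fun p : (ℕ × List ℕ × List ℕ) × ℕ => natCode (div3 (p.1.2.2.idxOf p.2) + 1) := by
    fun_prop
  have h1 := flatMap_aux (d := 1) (e := 0) (k := 20)
    (l := fun p : ℕ × List ℕ × List ℕ => p.2.1.filter fun v => Nat.blt v p.1)
    (f := fun p v => natCode (div3 (p.2.2.idxOf v) + 1)) (by fun_prop) h.1 h.2
    (by omega) (by omega)
  have h2 : Q 20 fun p : ℕ × List ℕ × List ℕ => natCode p.1 := by fun_prop
  have h3 : Q 1 fun p : List Bool × List Bool => p.1 ++ p.2 := by fun_prop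
  exact h3.1.comp (h2.1.pair h1.1) ((h2.2.up (by omega)).pair h1.2) (by omega)

theorem findN_q : Q 3 fun p : List Bool × List ℕ => findN p.1 p.2 := by
  unfold findN; fun_prop

@[fun_prop] theorem edges_q :
    Q (d + 3) fun p : ℕ × List Bool × List (ℕ × ℕ) => edges p.1 p.2.1 p.2.2 := by
  unfold edges; fun_prop

@[fun_prop] theorem wstep_q :
    Q (d + 3) fun p : List (ℕ × ℕ) × List (ℕ × ℕ) × ℕ => wstep p.1 p.2.1 p.2.2 := by
  unfold wstep; fun_prop

theorem closure_q :
    Q 4 fun p : ℕ × List Bool × List ℕ × List (ℕ × ℕ) => closure p.1 p.2.1 p.2.2 :=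
  Q.foldl (f := fun (p : ℕ × List Bool × List ℕ × List (ℕ × ℕ)) R k => wstep p.2.2.2 R k)
    (fun p => esize p.2.2.2) (by fun_prop) (by fun_prop) (by fun_prop)
    (show Q 0 _ by fun_prop).2 fun p i =>
      foldl_take_inv (fun R => esize R ≤ esize p.2.2.2) _ _ _
        (esize_sublist List.filter_sublist) (fun _ _ _ _ => esize_sublist List.filter_sublist) i

theorem PK.prodL {α β γ : Type} [Enc α] [Enc β] [Enc γ] {K s : ℕ} {l : α → List β}
    {m : α → List γ} (hl : PK K s l) (hm : PK K s m) (h : s * 21 ≤ K + 1) :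
    PK K (s * 3) fun a => prodL (l a) (m a) := by
  have := PK.comp prodL_deg (hl.pair hm) h
  exact this

theorem numJ_pk : PK 100000 2 numJ := by
  have x0 : PK 100000 1 fun x : List Bool => x := Q.id'
  have x1 : PK 100000 1 fun x : List Bool => x.length := Q.length Q.id'
  have h0 := PK.comp range_deg x1 (by omega)
  have := PK.comp findN_q ((x0.up (by omega)).pair h0) (by omega)
  exact this

theorem syms_pk : PK 100000 4 fun x => syms (numJ x) := by
  have h := PK.comp (show Q 1 fun n : ℕ => n + n + n + 1 by fun_prop) numJ_pk (by omega)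
  have := PK.comp range_deg h (by omega)
  exact this

theorem ctx_pk :
    PK 100000 12 fun x : List Bool => ctx (numJ x) (x.drop (natCode (numJ x)).length) := by
  have x0 : PK 100000 1 fun x : List Bool => x := Q.id'
  have h3 := PK.comp (show Q 1 fun n : ℕ => n + n + n by fun_prop) numJ_pk (by omega)
  have hb := PK.comp (show Q 2 fun p : List Bool × ℕ => p.1.drop (natCode p.2).length by fun_prop)
    ((x0.up (by omega)).pair numJ_pk) (by omega)
  have hJJ := syms_pk.prodL syms_pk (by omega)
  have hR := PK.comp closure_q ((numJ_pk.up (by omega)).pair ((hb.up (by omega)).pair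
    ((syms_pk.up (by omega)).pair hJJ))) (by omega)
  have := (h3.up (by omega)).pair ((syms_pk.up (by omega)).pair hR)
  exact this

theorem descs_pk : PK 100000 972 fun x => descs (syms (numJ x)) := by
  have hJJ := syms_pk.prodL syms_pk (by omega)
  have hT0 := (syms_pk.up (by omega)).prodL hJJ (by omega)
  have hT : PK 100000 36 fun x => triples (syms (numJ x)) := hT0
  have hT2 := hT.prodL hT (by omega)
  have := (hT.up (by omega)).prodL (hT2.prodL hT2 (by omega)) (by omega)
  exact this

theorem alg_td : TD 100000 alg := by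
  have ht := PK.comp table_deg ((ctx_pk.up (by omega)).pair descs_pk) (by omega)
  have hs0 := PK.comp best_q ((numJ_pk.up (by omega)).pair ((syms_pk.up (by omega)).pair ht))
    (by omega)
  have hs : PK 100000 1944
      fun x : List Bool => sol (numJ x) (x.drop (natCode (numJ x)).length) := hs0
  have h := (numJ_pk.up (by omega)).pair ((syms_pk.up (by omega)).pair hs)
  have := out_td.comp h.1 h.2 (by omega)
  exact this

theorem alg_time : ∃ C : ℕ, Crest.DTime.TimeBound alg (fun L => C * (L + 2) ^ 150020 + C) :=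
  alg_td.timeBound (by omega) (by omega)

end Crest.Agent.R286
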