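import Crest.Agent.Lib.PolyTime.Codes

/-!
# Row 286: polynomial time with explicit degrees  (helper94)

`TD d f`: time `O(size ^ (d + 1))`; `SD s f`: output size `O(size ^ s)`;
`Q d f`: `TD d f` and linear output size (a `fun_prop` property).
-/

set_option autoImplicit false
set_option linter.unusedSectionVars false

namespace Crest.Agent.R286

open Function Crest.Agent.Lib.PolyTime

variable {α β γ δ : Type} [Enc α] [Enc β] [Enc γ] [Enc δ]

/-- `g = O(size ^ k)` -/
def Bd (k : ℕ) (g : α → ℕ) : Prop := ∃ C : ℕ, ∀ a, g a ≤ C * esize a ^ k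

/-- time `O(size ^ (d + 1))` -/
def TD (d : ℕ) (f : α → β) : Prop := ∃ t : α → ℕ, Bd (d + 1) t ∧ CT f t

/-- output size `O(size ^ s)` -/
def SD (s : ℕ) (f : α → β) : Prop := Bd s fun a => esize (f a)

/-- time `O(size ^ (d + 1))` and linear output size -/
@[fun_prop] def Q (d : ℕ) (f : α → β) : Prop := TD d f ∧ SD 1 f

namespace Bd
variable {k l : ℕ} {f g : α → ℕ}

theorem mono (h : Bd k g) (hf : ∀ a, f a ≤ g a) : Bd k f := by
  obtain ⟨C, h⟩ := h
  exact ⟨C, fun a => (hf a).trans (h a)⟩

theorem up (h : Bd k g) (hk : k ≤ l) : Bd l g := by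
  obtain ⟨C, h⟩ := h
  exact ⟨C, fun a => (h a).trans
    (Nat.mul_le_mul_left _ (Nat.pow_le_pow_right (esize_pos a) hk))⟩

theorem const (c : ℕ) : Bd k (fun _ : α => c) :=
  ⟨c, fun a => Nat.le_mul_of_pos_right _ (pow_pos (esize_pos a) _)⟩

theorem add (hf : Bd k f) (hg : Bd k g) : Bd k (fun a => f a + g a) := by
  obtain ⟨C, hf⟩ := hf
  obtain ⟨D, hg⟩ := hg
  exact ⟨C + D, fun a => by rw [add_mul]; exact Nat.add_le_add (hf a) (hg a)⟩

theorem mul (hf : Bd k f) (hg : Bd l g) : Bd (k + l) (fun a => f a * g a) := by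
  obtain ⟨C, hf⟩ := hf
  obtain ⟨D, hg⟩ := hg
  refine ⟨C * D, fun a => (Nat.mul_le_mul (hf a) (hg a)).trans (le_of_eq ?_)⟩
  rw [pow_add]; ring

theorem cmul (c : ℕ) (hg : Bd k g) : Bd k (fun a => c * g a) := by
  have := (const (k := 0) (α := α) c).mul hg
  rwa [zero_add] at this

theorem pow (hf : Bd k f) (m : ℕ) : Bd (k * m) (fun a => f a ^ m) := by
  obtain ⟨C, hf⟩ := hf
  refine ⟨C ^ m, fun a => (Nat.pow_le_pow_left (hf a) m).trans (le_of_eq ?_)⟩
  rw [mul_pow, pow_mul]

theorem esize : Bd (k + 1) (fun a : α => esize a) :=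
  up (k := 1) ⟨1, fun a => by simp⟩ (by omega)

theorem comp {t : β → ℕ} {s : ℕ} {g : α → β} (ht : Bd k t) (hg : SD s g) :
    Bd (s * k) (fun a => t (g a)) := by
  obtain ⟨C, ht⟩ := ht
  exact (cmul C (pow hg k)).mono fun a => ht (g a)

end Bd

theorem SD.up {s s' : ℕ} {f : α → β} (h : SD s f) (hs : s ≤ s') : SD s' f := Bd.up h hs

theorem SD.comp {s e : ℕ} {f : β → γ} {g : α → β} (hf : SD e f) (hg : SD s g) :
    SD (s * e) (fun a => f (g a)) := Bd.comp (t := fun b => esize (f b)) hf hg

theorem SD.pair {s : ℕ} {f : α → β} {g : α → γ} (hf : SD s f) (hg : SD s g) :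
    SD s (fun a => (f a, g a)) := (Bd.add (Bd.add hf hg) (Bd.const 1))

theorem SD.id' : SD 1 (fun a : α => a) := Bd.esize (k := 0)

namespace TD
variable {d k s : ℕ}

theorem up {f : α → β} (h : TD d f) (hk : d ≤ k) : TD k f := by
  obtain ⟨t, ht, h⟩ := h
  exact ⟨t, ht.up (by omega), h⟩

theorem sd {f : α → β} (h : TD d f) : SD (d + 1) f := by
  obtain ⟨t, ht, h⟩ := h
  exact (Bd.esize.add ht).mono fun a => h.esize_le a

theorem of_eq {f g : α → β} (h : TD d f) (e : ∀ a, f a = g a) : TD d g := funext e ▸ h

theorem of_enc {f : α → β} {g : α → γ} (h : TD d f) (e : ∀ a, enc (g a) = enc (f a)) :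
    TD d g := by
  obtain ⟨t, ht, h⟩ := h
  exact ⟨t, ht, TC.congr h (fun _ => rfl) e⟩

theorem id' : TD d (fun a : α => a) := ⟨_, Bd.const 1, TC.id _⟩

theorem comp {f : β → γ} {g : α → β} (hf : TD d f) (hg : TD k g) (hs : SD s g)
    (h : s * (d + 1) ≤ k + 1) : TD k (fun a => f (g a)) := by
  obtain ⟨t, ht, hf⟩ := hf
  obtain ⟨t', ht', hg⟩ := hg
  exact ⟨_, ht'.add ((ht.comp hs).up h), hf.comp hg⟩

theorem compQ {f : β → γ} {g : α → β} (hf : TD d f) (hg : Q d g) : TD d (fun a => f (g a)) :=
  hf.comp hg.1 hg.2 (by omega)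

theorem pair {f : α → β} {g : α → γ} (hf : TD d f) (hg : TD d g) :
    TD d (fun a => (f a, g a)) := by
  have hs := hf.sd
  have hs' := hg.sd
  obtain ⟨t, ht, hf⟩ := hf
  obtain ⟨t', ht', hg⟩ := hg
  exact ⟨fun a => t a + t' a + 7 * esize a + 4 * esize (f a) + 4 * esize (g a) + 8,
    ((((ht.add ht').add (Bd.esize.cmul 7)).add (Bd.cmul 4 hs)).add (Bd.cmul 4 hs')).add
      (Bd.const 8), TC.pair hf hg⟩

theorem cond_sub {c : α → Bool} {out : α → β} (hc : TD d c)
    (h1 : TD d fun a : {a // c a = true} => out a.1)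
    (h2 : TD d fun a : {a // c a = false} => out a.1) : TD d out := by
  obtain ⟨t1, ⟨k1, ht1⟩, h1⟩ := h1
  obtain ⟨t2, ⟨k2, ht2⟩, h2⟩ := h2
  obtain ⟨t, ht, h⟩ := hc.pair (id' (α := α))
  refine ⟨fun a => t a + ((k1 + k2) * esize a ^ (d + 1) + 7),
    ht.add (Bd.add ⟨k1 + k2, fun _ => le_rfl⟩ (Bd.const 7)), TC.comp h
    (TC.cond (e := enc) (out := fun a => enc (out a)) c
      (t := fun a => (k1 + k2) * esize a ^ (d + 1)) (TC.mono h1 fun a => ?_)
      (TC.mono h2 fun a => ?_))⟩
  · exact (ht1 a).trans (Nat.mul_le_mul_right _ (by omega))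
  · exact (ht2 a).trans (Nat.mul_le_mul_right _ (by omega))

end TD

namespace Q
variable {d : ℕ}

theorem up {k : ℕ} {f : α → β} (h : Q d f) (hk : d ≤ k) : Q k f := ⟨h.1.up hk, h.2⟩

theorem of_eq {f g : α → β} (h : Q d f) (e : ∀ a, f a = g a) : Q d g := funext e ▸ h

theorem of_enc {f : α → β} {g : α → γ} (h : Q d f) (e : ∀ a, enc (g a) = enc (f a)) : Q d g :=
  ⟨h.1.of_enc e, Bd.mono h.2 fun a => by simp only [esize, e, le_refl]⟩

@[fun_prop] theorem id' : Q d (fun a : α => a) := ⟨TD.id', SD.id'⟩

@[fun_prop] theorem comp {f : β → γ} {g : α → β} (hf : Q d f) (hg : Q d g) :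
    Q d (fun a => f (g a)) := ⟨hf.1.compQ hg, hf.2.comp hg.2⟩

@[fun_prop] theorem prodMk {f : α → β} {g : α → γ} (hf : Q d f) (hg : Q d g) :
    Q d (fun a => (f a, g a)) := ⟨hf.1.pair hg.1, hf.2.pair hg.2⟩

theorem fst' : Q d (Prod.fst : α × β → α) :=
  ⟨⟨fun p => 7 * esize p, Bd.esize.cmul 7, TC.fst (fun p : α × β => enc p.1) (fun p => enc p.2)⟩,
    (SD.id' (α := α × β)).mono fun p => by rw [esize_prod p]; omega⟩

theorem snd' : Q d (Prod.snd : α × β → β) :=
  ⟨⟨fun p => 7 * esize p, Bd.esize.cmul 7, TC.snd (fun p : α × β => enc p.1) (fun p => enc p.2)⟩,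
    (SD.id' (α := α × β)).mono fun p => by rw [esize_prod p]; omega⟩

@[fun_prop] theorem fst {f : α → β × γ} (hf : Q d f) : Q d (fun a => (f a).1) := fst'.comp hf
@[fun_prop] theorem snd {f : α → β × γ} (hf : Q d f) : Q d (fun a => (f a).2) := snd'.comp hf

theorem const_tr (c : Tr) : Q d (fun _ : α => c) := by
  induction c with
  | nil =>
    exact ⟨⟨fun a => 2 * esize a + 2, (Bd.esize.cmul 2).add (Bd.const 2), TC.nil _⟩, Bd.const _⟩
  | cons x y ihx ihy => exact (ihx.prodMk ihy).of_enc fun _ => rfl

@[fun_prop] theorem const (c : β) : Q d (fun _ : α => c) :=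
  (const_tr (enc c)).of_enc fun _ => rfl

theorem subVal {p : α → Prop} : Q d (fun a : {a // p a} => a.1) := id'.of_enc fun _ => rfl

theorem restrict {f : α → β} (hf : Q d f) (p : α → Prop) : Q d (fun a : {a // p a} => f a.1) :=
  hf.comp subVal

end Q

namespace TD
variable {d k s : ℕ}

theorem restrict {f : α → β} (hf : TD d f) (p : α → Prop) : TD d (fun a : {a // p a} => f a.1) :=
  hf.compQ Q.subVal

theorem cond {c : α → Bool} {f g : α → β} (hc : TD d c) (hf : TD d f) (hg : TD d g) :
    TD d (fun a => cond (c a) (f a) (g a)) :=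
  cond_sub hc ((hf.restrict _).of_eq fun a => by simp [a.2])
    ((hg.restrict _).of_eq fun a => by simp [a.2])

theorem whileLoop {p : ℕ} {step : γ → γ} {cont : γ → Bool} {ini : α → γ} {N : α → ℕ} (B : α → ℕ)
    (hstep : TD d step) (hcont : TD d cont) (hini : TD k ini) (hN : Bd p N) (hB : Bd s B)
    (hk : p + s * (d + 1) ≤ k + 1)
    (h1 : ∀ a i, i < N a → cont (step^[i] (ini a)) = true)
    (h2 : ∀ a, cont (step^[N a] (ini a)) = false)
    (hsz : ∀ a i, i ≤ N a → esize (step^[i] (ini a)) ≤ B a) :
    TD k fun a => step^[N a] (ini a) := by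
  obtain ⟨t, ⟨C, ht⟩, h⟩ := hcont.pair (hcont.cond hstep id')
  obtain ⟨t0, ht0, hini⟩ := hini
  have := TC.doWhile (fun a i => enc (step^[min i (N a)] (ini a))) N
    (fun a _ => C * B a ^ (d + 1))
    (((TC.reindex h (fun p : (a : α) ×' {i : ℕ // i ≤ N a} => step^[p.2.1] (ini p.1))).mono
      fun p => (ht _).trans (Nat.mul_le_mul_left _
        (Nat.pow_le_pow_left (hsz p.1 p.2.1 p.2.2) _))).congr
      (fun p => by rw [min_eq_left p.2.2]) (fun p => ?_))
  · refine ⟨fun a => t0 a + ((N a + 1) * (C * B a ^ (d + 1) + 9) + 2), ht0.add (Bd.add ?_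
      (Bd.const 2)), TC.comp hini ((this.congr (fun a => by simp) (fun a => by simp)).mono
        fun a => by simp)⟩
    exact ((hN.add (Bd.const 1)).mul (((hB.pow _).cmul C).add (Bd.const 9))).up hk
  · obtain ⟨a, i, hi⟩ := p
    show _ = Tr.cons (Tr.ofBool _) (enc _)
    rcases hi.lt_or_eq with hlt | rfl
    · simp only [h1 a i hlt, hlt, decide_true, cond_true]
      rw [min_eq_left (by omega), iterate_succ_apply']
    · simp [h2 a]

end TD

namespace Q
variable {d : ℕ}

@[fun_prop] theorem cond {c : α → Bool} {f g : α → β} (hc : Q d c) (hf : Q d f) (hg : Q d g) :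
    Q d (fun a => cond (c a) (f a) (g a)) :=
  ⟨hc.1.cond hf.1 hg.1, (Bd.add hf.2 hg.2).mono fun a => by
    dsimp only
    cases c a <;> simp⟩

@[fun_prop] theorem bnot {f : α → Bool} (hf : Q d f) : Q d (fun a => !f a) :=
  (hf.cond (const false) (const true)).of_eq fun a => by cases f a <;> rfl

@[fun_prop] theorem band {f g : α → Bool} (hf : Q d f) (hg : Q d g) : Q d (fun a => f a && g a) :=
  (hf.cond hg (const false)).of_eq fun a => by cases f a <;> rfl

@[fun_prop] theorem bor {f g : α → Bool} (hf : Q d f) (hg : Q d g) : Q d (fun a => f a || g a) :=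
  (hf.cond (const true) hg).of_eq fun a => by cases f a <;> rfl

@[fun_prop] theorem bxor {f g : α → Bool} (hf : Q d f) (hg : Q d g) :
    Q d (fun a => xor (f a) (g a)) :=
  (hf.cond hg.bnot hg).of_eq fun a => by cases f a <;> cases g a <;> rfl

@[fun_prop] theorem cons {f : α → β} {l : α → List β} (hf : Q d f) (hl : Q d l) :
    Q d (fun a => f a :: l a) := (hf.prodMk hl).of_enc fun _ => rfl

@[fun_prop] theorem isEmpty {l : α → List β} (hl : Q d l) : Q d (fun a => (l a).isEmpty) := by
  have h : Q d (fun b : List β => decide (enc b ≠ Tr.nil)) :=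
    ⟨⟨fun b => 2 * esize b + 5, (Bd.esize.cmul 2).add (Bd.const 5), TC.isCons _⟩,
      (Bd.const 3).mono fun _ => esize_bool_le _⟩
  refine (h.comp hl).bnot.of_eq fun a => ?_
  cases l a with
  | nil => exact rfl
  | cons x xs =>
    have : enc (x :: xs) ≠ Tr.nil := fun h => by cases h
    simp [this]

theorem headTail {l : α → List β} (hl : Q d l) :
    Q d fun a : {a // (l a).isEmpty = false} =>
      ((l a.1).head (by simpa using a.2), (l a.1).tail) :=
  (hl.restrict _).of_enc fun a => by
    have : ∀ (x : List β) (hx : x ≠ []), enc (x.head hx, x.tail) = enc x := by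
      intro x hx
      cases x with
      | nil => exact absurd rfl hx
      | cons x xs => rfl
    exact this _ _

end Q

theorem TD.list_casesOn {d : ℕ} {l : α → List β} {f : α → γ} {g : α → β → List β → γ}
    (hl : Q d l) (hf : TD d f) (hg : TD d fun p : α × β × List β => g p.1 p.2.1 p.2.2) :
    TD d fun a => List.casesOn (motive := fun _ => γ) (l a) (f a) (g a) := by
  refine TD.cond_sub hl.isEmpty.1 ((hf.restrict _).of_eq fun a => ?_) ?_
  · have : l a.1 = [] := by simpa using a.2
    rw [this]
  · refine (hg.compQ (Q.subVal.prodMk hl.headTail)).of_eq fun a => ?_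
    have : ∀ (x : List β) (hx : x ≠ []), g a.1 (x.head hx) x.tail =
        List.casesOn (motive := fun _ => γ) x (f a.1) (g a.1) := by
      intro x hx
      cases x with
      | nil => exact absurd rfl hx
      | cons x xs => rfl
    exact this _ _

namespace Q
variable {d : ℕ}

@[fun_prop] theorem tail {l : α → List β} (hl : Q d l) : Q d (fun a => (l a).tail) :=
  ⟨(TD.list_casesOn hl (const ([] : List β)).1 (g := fun _ _ xs => xs)
    (show Q d _ by fun_prop).1).of_eq fun a => by cases l a <;> rfl,
    Bd.mono hl.2 fun a => esize_sublist (List.tail_sublist _)⟩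

@[fun_prop] theorem headD {l : α → List β} {e : α → β} (hl : Q d l) (he : Q d e) :
    Q d (fun a => (l a).headD (e a)) :=
  ⟨(TD.list_casesOn hl he.1 (g := fun _ x _ => x) (show Q d _ by fun_prop).1).of_eq fun a => by
    cases l a <;> rfl, (Bd.add hl.2 he.2).mono fun a => by
      dsimp only
      cases l a <;> simp; omega⟩

@[fun_prop] theorem some {f : α → β} (hf : Q d f) : Q d (fun a => Option.some (f a)) :=
  (hf.cons (const [])).of_enc fun _ => rfl

@[fun_prop] theorem toList {o : α → Option β} (ho : Q d o) : Q d (fun a => (o a).toList) :=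
  ho.of_enc fun _ => rfl

@[fun_prop] theorem isSome {o : α → Option β} (ho : Q d o) : Q d (fun a => (o a).isSome) :=
  ho.toList.isEmpty.bnot.of_eq fun a => by cases o a <;> rfl

end Q

/-- Left fold; `B` bounds the sizes of all intermediate accumulators. -/
theorem TD.foldl {d k s : ℕ} {l : α → List β} {ini : α → γ} {f : α → γ → β → γ} (B : α → ℕ)
    (hl : TD k l) (hls : SD (s + 1) l) (hini : TD k ini)
    (hf : TD d fun p : α × γ × β => f p.1 p.2.1 p.2.2) (hB : Bd (s + 1) B)
    (hk : (s + 1) * (d + 2) ≤ k + 1)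
    (hsz : ∀ a i, esize (((l a).take i).foldl (f a) (ini a)) ≤ B a) :
    TD k fun a => (l a).foldl (f a) (ini a) := by
  let step : α × List β × γ → α × List β × γ := fun s =>
    List.casesOn (motive := fun _ => α × List β × γ) s.2.1 s
      (fun x xs => (s.1, xs, f s.1 s.2.2 x))
  have hstep : TD d step := by
    refine TD.list_casesOn (by fun_prop) TD.id' ?_
    refine TD.pair (show Q d _ by fun_prop).1 (TD.pair (show Q d _ by fun_prop).1 ?_)
    exact hf.compQ (g := fun p : (α × List β × γ) × β × List β => (p.1.1, p.1.2.2, p.2.1))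
      (by fun_prop)
  have key : ∀ a i, i ≤ (l a).length → step^[i] (a, l a, ini a) =
      (a, (l a).drop i, ((l a).take i).foldl (f a) (ini a)) := by
    intro a i
    induction i with
    | zero => simp
    | succ i ih =>
      intro hi
      rw [iterate_succ_apply', ih (by omega), List.drop_eq_getElem_cons (by omega : i < _),
        List.take_succ_eq_append_getElem (by omega : i < _), List.foldl_append]
      rfl
  have hBd : Bd (s + 1) fun a => esize a + esize (l a) + B a + 2 :=
    ((Bd.esize.add hls).add hB).add (Bd.const 2)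
  have hsize : ∀ a i, i ≤ (l a).length →
      esize (step^[i] (a, l a, ini a)) ≤ esize a + esize (l a) + B a + 2 := fun a i hi => by
    rw [key a i hi]
    have h1 := hsz a i
    have h2 := esize_sublist (List.drop_sublist i (l a))
    simp only [esize_pair]; omega
  have := TD.whileLoop (step := step) (cont := fun s => !s.2.1.isEmpty) (p := s + 1)
    (ini := fun a => (a, l a, ini a)) (N := fun a => (l a).length)
    (fun a => esize a + esize (l a) + B a + 2) hstep (show Q d _ by fun_prop).1
    (TD.id'.pair (hl.pair hini)) (Bd.mono hls fun a => (length_lt_esize _).le) hBd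
    (by rw [show d + 2 = (d + 1) + 1 by omega, Nat.mul_succ] at hk; omega)
    (fun a i hi => by rw [key a i hi.le]; simpa using hi)
    (fun a => by rw [key a _ le_rfl]; simp) hsize
  refine ((show Q 0 fun s : α × List β × γ => s.2.2 by fun_prop).1.comp this
    (s := s + 1) (hBd.mono fun a => hsize a _ le_rfl) (by nlinarith)).of_eq fun a => ?_
  rw [key a _ le_rfl]; simp

theorem foldl_take_inv {γ β : Type} (I : γ → Prop) (f : γ → β → γ) (l : List β) (c : γ)
    (h0 : I c) (hs : ∀ c x, x ∈ l → I c → I (f c x)) (i : ℕ) : I ((l.take i).foldl f c) := by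
  have : ∀ (m : List β) (c : γ), (∀ x ∈ m, x ∈ l) → I c → I (m.foldl f c) := by
    intro m
    induction m with
    | nil => intro c _ h; exact h
    | cons x m ih =>
      intro c hm h
      exact ih _ (fun y hy => hm y (by simp [hy])) (hs c x (hm x (by simp)) h)
  exact this _ _ (fun x hx => List.mem_of_mem_take hx) h0

theorem foldl_take_grow (f : γ → β → γ) (g : β → ℕ) (l : List β) (c : γ)
    (h : ∀ c x, x ∈ l → esize (f c x) ≤ esize c + g x) (i : ℕ) :
    esize ((l.take i).foldl f c) ≤ esize c + (l.map g).sum := by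
  induction l generalizing c i with
  | nil => simp
  | cons x l ih =>
    cases i with
    | zero => simp
    | succ i =>
      have h1 := ih (f c x) (fun c y hy => h c y (by simp [hy])) i
      have h2 := h c x (by simp)
      simp only [List.take_succ_cons, List.foldl_cons, List.map_cons, List.sum_cons]
      omega

namespace Q
variable {d : ℕ}

theorem foldl {l : α → List β} {ini : α → γ} {f : α → γ → β → γ} (B : α → ℕ)
    (hl : Q (d + 1) l) (hini : Q (d + 1) ini) (hf : Q d fun p : α × γ × β => f p.1 p.2.1 p.2.2)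
    (hB : Bd 1 B) (hsz : ∀ a i, esize (((l a).take i).foldl (f a) (ini a)) ≤ B a) :
    Q (d + 1) fun a => (l a).foldl (f a) (ini a) :=
  ⟨TD.foldl (s := 0) B hl.1 hl.2 hini.1 hf.1 hB (by omega) hsz, hB.mono fun a => by
    simpa using hsz a (l a).length⟩

/-- each step adds at most the size of the list element plus `C` -/
theorem foldl_grow {l : α → List β} {ini : α → γ} {f : α → γ → β → γ} (C : ℕ)
    (hl : Q (d + 1) l) (hini : Q (d + 1) ini) (hf : Q d fun p : α × γ × β => f p.1 p.2.1 p.2.2)
    (h : ∀ a c x, esize (f a c x) ≤ esize c + (esize x + C)) :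
    Q (d + 1) fun a => (l a).foldl (f a) (ini a) := by
  refine foldl (fun a => esize (ini a) + (C + 1) * esize (l a)) hl hini hf
    (Bd.add hini.2 (Bd.cmul _ hl.2)) fun a i => ?_
  refine (foldl_take_grow (f a) (fun x => esize x + C) _ _ (fun c x _ => h a c x) i).trans ?_
  refine Nat.add_le_add_left ?_ _
  generalize l a = m
  induction m with
  | nil => simp
  | cons x m ih =>
    have := esize_pos x
    simp only [List.map_cons, List.sum_cons, esize_cons]
    nlinarith

@[fun_prop] theorem reverseAux {l m : α → List β} (hl : Q (d + 1) l) (hm : Q (d + 1) m) :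
    Q (d + 1) fun a => (l a).reverseAux (m a) :=
  (foldl_grow (f := fun _ c x => x :: c) 1 hl hm (by fun_prop)
    (fun a c x => by simp; omega)).of_eq fun a => by
      generalize l a = x; generalize m a = y
      induction x generalizing y with
      | nil => rfl
      | cons b x ih => exact ih _

@[fun_prop] theorem reverse {l : α → List β} (hl : Q (d + 1) l) :
    Q (d + 1) fun a => (l a).reverse := hl.reverseAux (const [])

@[fun_prop] theorem append {l m : α → List β} (hl : Q (d + 1) l) (hm : Q (d + 1) m) :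
    Q (d + 1) fun a => l a ++ m a :=
  (hl.reverse.reverseAux hm).of_eq fun a => by simp [List.reverseAux_eq]

theorem foldr_grow {l : α → List β} {ini : α → γ} {f : α → β → γ → γ} (C : ℕ)
    (hl : Q (d + 1) l) (hini : Q (d + 1) ini) (hf : Q d fun p : α × β × γ => f p.1 p.2.1 p.2.2)
    (h : ∀ a x c, esize (f a x c) ≤ esize c + (esize x + C)) :
    Q (d + 1) fun a => (l a).foldr (f a) (ini a) :=
  (foldl_grow (f := fun a c x => f a x c) C hl.reverse hini
    (hf.comp (g := fun p : α × γ × β => (p.1, p.2.2, p.2.1)) (by fun_prop))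
    (fun a c x => h a x c)).of_eq fun a => by rw [List.foldl_reverse]

@[fun_prop] theorem any {l : α → List β} {f : α → β → Bool} (hl : Q (d + 1) l)
    (hf : Q d fun p : α × β => f p.1 p.2) : Q (d + 1) fun a => (l a).any (f a) :=
  (foldr_grow (f := fun a x c => f a x || c) 3 hl (const false)
    ((hf.comp (g := fun p : α × β × Bool => (p.1, p.2.1)) (by fun_prop)).bor (by fun_prop))
    (fun a x c => by have := esize_bool_le (f a x || c); omega)).of_eq fun a => by
      generalize l a = x
      induction x with
      | nil => rfl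
      | cons b x ih => simp only [List.foldr_cons, ih, List.any_cons]

@[fun_prop] theorem all {l : α → List β} {f : α → β → Bool} (hl : Q (d + 1) l)
    (hf : Q d fun p : α × β => f p.1 p.2) : Q (d + 1) fun a => (l a).all (f a) :=
  (hl.any (f := fun a x => !f a x) hf.bnot).bnot.of_eq fun a => by
    rw [Bool.eq_iff_iff]; simp

@[fun_prop] theorem filter {l : α → List β} {f : α → β → Bool} (hl : Q (d + 1) l)
    (hf : Q d fun p : α × β => f p.1 p.2) : Q (d + 1) fun a => (l a).filter (f a) :=
  (foldr_grow (f := fun a x c => bif f a x then x :: c else c) 1 hl (const [])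
    ((hf.comp (g := fun p : α × β × List β => (p.1, p.2.1)) (by fun_prop)).cond (by fun_prop)
      (by fun_prop))
    (fun a x c => by cases f a x <;> simp; omega)).of_eq fun a => by
      generalize l a = x
      induction x with
      | nil => rfl
      | cons b x ih => cases h : f a b <;> simp [h, ih]

@[fun_prop] theorem findSome? {l : α → List β} {f : α → β → Option γ} (hl : Q (d + 1) l)
    (hf : Q d fun p : α × β => f p.1 p.2) : Q (d + 1) fun a => (l a).findSome? (f a) := by
  obtain ⟨C, hC⟩ := hf.2
  have hf' := hf.comp (g := fun p : α × Option γ × β => (p.1, p.2.2)) (by fun_prop)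
  refine (foldl (f := fun a c x => bif c.isSome then c else f a x)
    (fun a => C * (esize a + esize (l a)) + 1) hl (const none)
    (Q.cond (by fun_prop) (by fun_prop) hf')
    (((SD.id'.add hl.2).cmul C).add (Bd.const 1)) fun a i => ?_).of_eq fun a => ?_
  · refine foldl_take_inv (fun c => esize c ≤ C * (esize a + esize (l a)) + 1) _ _ _ (by simp)
      (fun c x hx hc => ?_) i
    cases c.isSome
    · have h1 := hC (a, x)
      have h2 := esize_lt_of_mem hx
      simp only [esize_pair, pow_one] at h1
      have : C * (esize a + esize x + 1) ≤ C * (esize a + esize (l a)) :=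
        Nat.mul_le_mul_left _ (by omega)
      simp only [cond_false]
      omega
    · exact hc
  · have : ∀ (m : List β) (c : Option γ),
        m.foldl (fun c x => bif c.isSome then c else f a x) c = c.or (m.findSome? (f a)) := by
      intro m
      induction m with
      | nil => intro c; simp
      | cons x m ih =>
        intro c
        rw [List.foldl_cons, ih, List.findSome?_cons]
        cases c <;> cases f a x <;> simp
    rw [this]; simp

theorem encBits {f : α → β} (hf : Q d f) : Q d fun a => (enc (f a)).bits := by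
  have h : Q d fun b : β => (enc b).bits :=
    ⟨⟨fun b => 7 * esize b + 3, (Bd.esize.cmul 7).add (Bd.const 3), inP, 2, fun b => by
      have := runs_inP (enc b).bits
      rw [Tr.length_bits] at this
      exact this⟩, ((SD.id'.cmul 4).add (Bd.const 1)).mono fun b => by
        have := esize_boolList_le (enc b).bits
        rwa [Tr.length_bits] at this⟩
  exact h.comp hf

theorem boolList_eq {l m : α → List Bool} (hl : Q (d + 1) l) (hm : Q (d + 1) m) :
    Q (d + 1) fun a => decide (l a = m a) := by
  have h := foldl_grow (ini := fun a => (true, m a))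
    (f := fun _ (s : Bool × List Bool) x =>
      (s.1 && !s.2.isEmpty && !(xor x (s.2.headD false)), s.2.tail))
    3 hl (by fun_prop) (by fun_prop) (fun a c x => by
      have h1 := esize_sublist (List.tail_sublist c.2)
      have h2 := esize_bool_le (c.1 && !c.2.isEmpty && !(xor x (c.2.headD false)))
      rw [esize_pair, esize_prod c]; omega)
  refine (h.fst.band h.snd.isEmpty).of_eq fun a => ?_
  have key : ∀ (x y : List Bool) (b : Bool),
      ((x.foldl (fun (s : Bool × List Bool) x =>
        (s.1 && !s.2.isEmpty && !(xor x (s.2.headD false)), s.2.tail)) (b, y)).1 &&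
      (x.foldl (fun (s : Bool × List Bool) x =>
        (s.1 && !s.2.isEmpty && !(xor x (s.2.headD false)), s.2.tail)) (b, y)).2.isEmpty) = true ↔
        (b = true ∧ x = y) := by
    intro x
    induction x with
    | nil => intro y b; cases y <;> simp
    | cons c x ih =>
      intro y b
      rw [List.foldl_cons, ih]
      cases y with
      | nil => simp
      | cons d y => cases c <;> cases d <;> simp
  rw [Bool.eq_iff_iff, key]; simp

@[fun_prop] theorem beq [BEq β] [LawfulBEq β] {f g : α → β} (hf : Q (d + 1) f)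
    (hg : Q (d + 1) g) : Q (d + 1) fun a => f a == g a :=
  (hf.encBits.boolList_eq hg.encBits).of_eq fun a => by
    rw [Bool.eq_iff_iff, decide_eq_true_eq, beq_iff_eq]
    exact ⟨fun h => Enc.inj (Tr.bits_append_inj _ _ [] [] (by simpa using h)).1,
      fun h => by rw [h]⟩

@[fun_prop] theorem contains [BEq β] [LawfulBEq β] {f : α → β} {l : α → List β}
    (hl : Q (d + 2) l) (hf : Q (d + 1) f) : Q (d + 2) fun a => (l a).contains (f a) :=
  (hl.any (f := fun a x => x == f a) (by fun_prop)).of_eq fun a => by
    rw [Bool.eq_iff_iff]; simp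

/-- drop as many elements as another list has -/
theorem dropLen {l : α → List β} {m : α → List γ} (hl : Q (d + 1) l) (hm : Q (d + 1) m) :
    Q (d + 1) fun a => (l a).drop (m a).length :=
  (foldl_grow (f := fun _ (c : List β) (_ : γ) => c.tail) 0 hm hl (by fun_prop)
    (fun a c x => by have := esize_sublist (List.tail_sublist c); omega)).of_eq fun a => by
      generalize l a = x; generalize m a = y
      induction y generalizing x with
      | nil => rfl
      | cons b y ih => rw [List.foldl_cons, ih]; simp

end Q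

theorem flatMap_aux {d e k : ℕ} {l : α → List β} {f : α → β → List γ} (hl : Q (d + 1) l)
    (hf : TD (d + 1) fun p : α × β => f p.1 p.2) (hs : SD (e + 1) fun p : α × β => f p.1 p.2)
    (he : (e + 1) * 2 ≤ d + 2) (hk : (e + 2) * (d + 3) ≤ k + 1) :
    TD k (fun a => (l a).flatMap (f a)) ∧ SD (e + 2) (fun a => (l a).flatMap (f a)) := by
  obtain ⟨C, hC⟩ := id hs
  have hB : Bd (e + 2) fun a => 1 + esize (l a) * (C * (esize a + esize (l a)) ^ (e + 1)) :=
    (Bd.const 1).add ((Bd.mul hl.2 (((SD.id'.add hl.2).pow (e + 1)).cmul C)).up (by omega))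
  have hsz : ∀ a i, esize ((((l a).reverse).take i).foldl (fun c x => f a x ++ c) []) ≤
      1 + esize (l a) * (C * (esize a + esize (l a)) ^ (e + 1)) := by
    intro a i
    refine (foldl_take_grow _ (fun _ => C * (esize a + esize (l a)) ^ (e + 1)) _ _
      (fun c x hx => ?_) i).trans ?_
    · have h1 := hC (a, x)
      have h2 := esize_lt_of_mem (List.mem_reverse.1 hx)
      simp only [esize_pair] at h1
      have : C * (esize a + esize x + 1) ^ (e + 1) ≤ C * (esize a + esize (l a)) ^ (e + 1) :=
        Nat.mul_le_mul_left _ (Nat.pow_le_pow_left (by omega) _)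
      have := esize_append_le (f a x) c
      omega
    · simp only [esize_nil, List.map_const', List.length_reverse, List.sum_replicate, smul_eq_mul]
      exact Nat.add_le_add_left (Nat.mul_le_mul_right _ (length_lt_esize _).le) _
  have e' : ∀ a, (l a).reverse.foldl (fun c x => f a x ++ c) [] = (l a).flatMap (f a) := by
    intro a
    rw [List.foldl_reverse]
    generalize l a = x
    induction x with
    | nil => rfl
    | cons b x ih => simp [ih]
  have q1 : Q (d + 1) fun p : α × List γ × β => (p.1, p.2.2) := by fun_prop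
  have q2 : Q (d + 1) fun p : α × List γ × β => p.2.1 := by fun_prop
  have q3 : Q 1 fun p : List γ × List γ => p.1 ++ p.2 := by fun_prop
  have hstep : TD (d + 1) fun p : α × List γ × β => f p.1 p.2.2 ++ p.2.1 :=
    q3.1.comp ((hf.compQ q1).pair q2.1) (s := e + 1)
      (SD.pair ((hs.comp q1.2).up (by omega)) (q2.2.up (by omega))) (by omega)
  have hdk : d + 1 ≤ k := by nlinarith
  refine ⟨(TD.foldl (s := e + 1) (d := d + 1) (f := fun a c x => f a x ++ c) _
    (hl.reverse.1.up hdk) (hl.reverse.2.up (by omega)) (Q.const []).1 hstep hB hk hsz).of_eq e',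
    hB.mono fun a => ?_⟩
  have := hsz a (l a).reverse.length
  rwa [List.take_length, e'] at this

/-- all pairs -/
def prodL {β γ : Type} (l : List β) (m : List γ) : List (β × γ) :=
  l.flatMap fun x => m.flatMap fun y => [(x, y)]

@[simp] theorem mem_prodL {β γ : Type} {l : List β} {m : List γ} {p : β × γ} :
    p ∈ prodL l m ↔ p.1 ∈ l ∧ p.2 ∈ m := by
  obtain ⟨x, y⟩ := p
  simp [prodL]

theorem prodL_deg : TD 20 (fun p : List β × List γ => prodL p.1 p.2) ∧
    SD 3 (fun p : List β × List γ => prodL p.1 p.2) := by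
  have h := flatMap_aux (d := 0) (e := 0) (k := 5)
    (l := fun p : (List β × List γ) × β => p.1.2) (f := fun p y => [(p.2, y)]) (by fun_prop)
    (show Q 1 _ by fun_prop).1 (show Q 1 _ by fun_prop).2 (by omega) (by omega)
  exact flatMap_aux (d := 4) (e := 1) (by fun_prop) h.1 h.2 (by omega) (by omega)

/-! ### Binary codes of lengths -/

/-- binary increment -/
def inc : List Bool → List Bool
  | [] => [true]
  | false :: l => true :: l
  | true :: l => false :: inc l

theorem inc_bits (n : ℕ) : inc n.bits = (n + 1).bits := by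
  induction n using Nat.binaryRec' with
  | zero => simp [inc]
  | bit b n h ih =>
    rw [Nat.bits_append_bit n b h]
    cases b
    · simp [inc, Nat.bit_val]
    · rw [inc, ih, show Nat.bit true n + 1 = 2 * (n + 1) by simp [Nat.bit_val]; omega,
        Nat.bit0_bits _ (by omega)]

theorem esize_inc (l : List Bool) : esize (inc l) ≤ esize l + 4 := by
  have e1 : esize true = 3 := rfl
  have e2 : esize false = 1 := rfl
  induction l with
  | nil => simp [inc, e1]
  | cons b l ih => cases b <;> simp [inc, e1, e2] <;> omega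

theorem inc_q {d : ℕ} : Q (d + 1) inc := by
  have h := Q.foldl_grow (d := d) (l := fun a : List Bool => a)
    (ini := fun _ => (true, ([] : List Bool)))
    (f := fun _ (s : Bool × List Bool) x => (s.1 && x, xor s.1 x :: s.2)) 7 (by fun_prop)
    (by fun_prop) (by fun_prop) (fun a c x => by
      have h1 := esize_bool_le (c.1 && x)
      have h2 := esize_bool_le (xor c.1 x)
      rw [esize_pair, esize_prod c, esize_cons]; omega)
  refine (h.fst.cond ((Q.const true).cons h.snd) h.snd).reverse.of_eq fun a => ?_
  have key : ∀ (l acc : List Bool) (c : Bool),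
      (bif (l.foldl (fun (s : Bool × List Bool) x => (s.1 && x, xor s.1 x :: s.2)) (c, acc)).1
        then true :: (l.foldl (fun (s : Bool × List Bool) x => (s.1 && x, xor s.1 x :: s.2))
          (c, acc)).2
        else (l.foldl (fun (s : Bool × List Bool) x => (s.1 && x, xor s.1 x :: s.2))
          (c, acc)).2).reverse = acc.reverse ++ bif c then inc l else l := by
    intro l
    induction l with
    | nil => intro acc c; cases c <;> simp [inc]
    | cons b l ih =>
      intro acc c
      rw [List.foldl_cons, ih]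
      cases c <;> cases b <;> simp [inc]
  simpa using key a [] true

theorem Q.natCodeLen {d : ℕ} {l : α → List β} (hl : Q (d + 2) l) :
    Q (d + 2) fun a => Crest.Enc.natCode (l a).length := by
  have h1 : Q (d + 2) fun a => (l a).length.bits :=
    (Q.foldl_grow (f := fun _ (c : List Bool) (_ : β) => inc c) 4 hl (Q.const [])
      (inc_q.comp (by fun_prop)) (fun a c x => by have := esize_inc c; omega)).of_eq fun a => by
        generalize l a = m
        induction m using List.reverseRecOn with
        | nil => simp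
        | append_singleton m x ih => simp [ih, inc_bits]
  refine (Q.foldr_grow (f := fun _ (b : Bool) (c : List Bool) => true :: b :: c) 5 h1
    (Q.const [false, false]) (by fun_prop) (fun a x c => by
      have := esize_bool_le true
      simp only [esize_cons]; omega)).of_eq fun a => ?_
  unfold Crest.Enc.natCode
  generalize (l a).length.bits = m
  induction m with
  | nil => rfl
  | cons b m ih => simp [ih]

end Crest.Agent.R286
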