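import Mathlib

/-!
# Row 286: the structure theorem for perfect three-machine schedules  (helper94)

Every perfect schedule has a binary decomposition into intervals of slots whose job sets are
described by a bounded number of jobs: the last slot, two generators of a lower bound and three
down-set atoms `pred(G) ∩ {π < θ}`.
-/

set_option autoImplicit false
set_option linter.unusedSectionVars false

namespace Crest.Agent.R286

/-- A finite set of jobs with a strict order `r`, a linear extension `π` and a spare symbol `o`. -/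
structure Ctx (V L : Type) [LinearOrder L] where
  /-- the jobs -/
  Ω : Finset V
  /-- precedence -/
  r : V → V → Prop
  /-- linear extension -/
  π : V → L
  /-- the spare symbol -/
  o : V
  trans : ∀ {u v w}, r u v → r v w → r u w
  mono : ∀ {u v}, r u v → π u < π v
  inj : Function.Injective π
  o_not : o ∉ Ω

namespace Ctx

variable {V L : Type} [DecidableEq V] [LinearOrder L] (c : Ctx V L)

/-- membership in the atom `pred(A.1, A.2.1) ∩ {π < π A.2.2}` -/
def inA (z : V) (A : V × V × V) : Prop :=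
  (A.1 = c.o ∨ c.r z A.1 ∨ c.r z A.2.1) ∧ (A.2.2 = c.o ∨ c.π z < c.π A.2.2)

/-- membership in the lower bound `succ(d.1, d.2)` -/
def inLo (z : V) (d : V × V) : Prop := d.1 = c.o ∨ c.r d.1 z ∨ c.r d.2 z

/-- membership in a described set -/
def inD (z : V) (S : V × V × V) (d : V × V) (A B C : V × V × V) : Prop :=
  (z = S.1 ∨ z = S.2.1 ∨ z = S.2.2) ∨
    (c.inLo z d ∧ (c.inA z A ∨ c.inA z B ∨ c.inA z C) ∧
      ¬ (c.r S.1 z ∨ c.r S.2.1 z ∨ c.r S.2.2 z))

/-- admissible parameter -/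
def Ok (v : V) : Prop := v ∈ c.Ω ∨ v = c.o

/-- admissible triple -/
def OkT (A : V × V × V) : Prop := c.Ok A.1 ∧ c.Ok A.2.1 ∧ c.Ok A.2.2

/-- the described sets -/
def Fam (X : Finset V) : Prop :=
  ∃ (S : V × V × V) (d : V × V) (A B C : V × V × V), c.OkT S ∧ c.Ok d.1 ∧ c.Ok d.2 ∧
    c.OkT A ∧ c.OkT B ∧ c.OkT C ∧ ∀ z, z ∈ X ↔ z ∈ c.Ω ∧ c.inD z S d A B C

/-- the sets found by the dynamic programme -/
inductive Der : Finset V → Prop
  | leaf (X : Finset V) : X ⊆ c.Ω → X.card = 3 → (∀ u ∈ X, ∀ v ∈ X, ¬ c.r u v) → Der X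
  | node (X Y : Finset V) : Der X → Der Y → Disjoint X Y → (∀ u ∈ Y, ∀ v ∈ X, ¬ c.r u v) →
      c.Fam (X ∪ Y) → Der (X ∪ Y)

/-- perfect schedule with slots `0, …, T - 1` -/
def Perfect (T : ℕ) (σ : V → ℕ) : Prop :=
  (∀ v ∈ c.Ω, σ v < T) ∧ (∀ t < T, (c.Ω.filter fun v => σ v = t).card = 3) ∧
    ∀ u ∈ c.Ω, ∀ v ∈ c.Ω, c.r u v → σ u < σ v

/-- the jobs in slots `g, …, h - 1` -/
def seg (σ : V → ℕ) (g h : ℕ) : Finset V := c.Ω.filter fun v => g ≤ σ v ∧ σ v < h

/-- `σ'` rearranges the slots `g, …, h - 1` of `σ` and keeps `P` in slot `h - 1` -/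
def Rel (T : ℕ) (σ : V → ℕ) (g h : ℕ) (P : Finset V) (σ' : V → ℕ) : Prop :=
  c.Perfect T σ' ∧ (∀ v ∈ c.Ω, g ≤ σ v → σ v < h → g ≤ σ' v ∧ σ' v < h) ∧
    (∀ v ∈ c.Ω, σ v < g ∨ h ≤ σ v → σ' v = σ v) ∧ ∀ p ∈ P, σ' p + 1 = h

/-- the invariant of a node -/
structure Inv (T : ℕ) (σ : V → ℕ) (g h : ℕ) (P : Finset V) (C F : List (V × V × V))
    (d : V × V) : Prop where
  perf : c.Perfect T σ
  gh : g < h
  hT : h ≤ T
  pinΩ : ∀ p ∈ P, p ∈ c.Ω
  pin : ∀ p ∈ P, σ p + 1 = h
  cover : ∀ v ∈ c.Ω, g ≤ σ v → σ v < h → v ∉ P → ∃ A ∈ C ++ F, c.inA v A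
  lo : ∀ v ∈ c.Ω, g ≤ σ v → σ v < h → v ∉ P → c.inLo v d
  pinU : ∀ p ∈ P, ∀ A ∈ C ++ F, ¬ c.inA p A
  loS : ∀ v ∈ c.Ω, c.inLo v d → g ≤ σ v
  predP : ∀ p ∈ P, ∀ v, c.r v p → ∃ A ∈ C, c.inA v A
  lenC : C.length ≤ P.card
  len : C.length + F.length ≤ 3
  ne : C ++ F ≠ []
  okA : ∀ A ∈ C ++ F, c.OkT A
  okd : c.Ok d.1 ∧ c.Ok d.2
  M : ∀ σ', c.Rel T σ g h P σ' → ∀ z ∈ c.Ω, h ≤ σ z → ∀ A ∈ C ++ F, c.inA z A →
    ∃ x ∈ c.Ω, x ∉ P ∧ σ' x + 1 = h ∧ c.r x z

variable {c}

theorem irrefl (v : V) : ¬ c.r v v := fun h => lt_irrefl _ (c.mono h)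

theorem inA_down {u v : V} {A : V × V × V} (h : c.r u v) (hv : c.inA v A) : c.inA u A := by
  refine ⟨?_, ?_⟩
  · rcases hv.1 with h1 | h1 | h1
    · exact Or.inl h1
    · exact Or.inr (Or.inl (c.trans h h1))
    · exact Or.inr (Or.inr (c.trans h h1))
  · rcases hv.2 with h1 | h1
    · exact Or.inl h1
    · exact Or.inr ((c.mono h).trans h1)

theorem Rel.refl {T g h : ℕ} {σ : V → ℕ} {P : Finset V} (hσ : c.Perfect T σ)
    (hP : ∀ p ∈ P, σ p + 1 = h) : c.Rel T σ g h P σ :=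
  ⟨hσ, fun _ _ h1 h2 => ⟨h1, h2⟩, fun _ _ _ => rfl, hP⟩

theorem Rel.trans {T g h : ℕ} {σ σ' σ'' : V → ℕ} {P : Finset V} (h1 : c.Rel T σ g h P σ')
    (h2 : c.Rel T σ' g h P σ'') : c.Rel T σ g h P σ'' := by
  refine ⟨h2.1, fun v hv a b => ?_, fun v hv a => ?_, h2.2.2.2⟩
  · obtain ⟨x, y⟩ := h1.2.1 v hv a b
    exact h2.2.1 v hv x y
  · have e := h1.2.2.1 v hv a
    rw [h2.2.2.1 v hv (by rw [e]; exact a), e]

theorem Rel.cases {T g h : ℕ} {σ σ' : V → ℕ} {P : Finset V} (h1 : c.Rel T σ g h P σ') {v : V}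
    (hv : v ∈ c.Ω) :
    (g ≤ σ v ∧ σ v < h ∧ g ≤ σ' v ∧ σ' v < h) ∨ ((σ v < g ∨ h ≤ σ v) ∧ σ' v = σ v) := by
  by_cases a : σ v < g ∨ h ≤ σ v
  · exact Or.inr ⟨a, h1.2.2.1 v hv a⟩
  · have := h1.2.1 v hv (by omega) (by omega)
    left; omega

theorem Rel.seg_eq {T g h : ℕ} {σ σ' : V → ℕ} {P : Finset V} (h1 : c.Rel T σ g h P σ') :
    c.seg σ' g h = c.seg σ g h := by
  unfold seg
  refine Finset.filter_congr fun v hv => ?_
  have := h1.cases hv
  omega

theorem Inv.move {T g h : ℕ} {σ τ : V → ℕ} {P : Finset V} {C F : List (V × V × V)} {d : V × V}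
    (I : c.Inv T σ g h P C F d) (hτ : c.Rel T σ g h P τ) : c.Inv T τ g h P C F d where
  perf := hτ.1
  gh := I.gh
  hT := I.hT
  pinΩ := I.pinΩ
  pin := hτ.2.2.2
  cover v hv a b := by
    have := hτ.cases hv
    exact I.cover v hv (by omega) (by omega)
  lo v hv a b := by
    have := hτ.cases hv
    exact I.lo v hv (by omega) (by omega)
  pinU := I.pinU
  loS v hv a := by
    have := hτ.cases hv
    have := I.loS v hv a
    have := I.gh
    omega
  predP := I.predP
  lenC := I.lenC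
  len := I.len
  ne := I.ne
  okA := I.okA
  okd := I.okd
  M σ' h' z hz a := by
    have := hτ.cases hz
    exact I.M σ' (hτ.trans h') z hz (by omega)

theorem Inv.fam {T g h : ℕ} {σ : V → ℕ} {P : Finset V} {C F : List (V × V × V)} {d : V × V}
    (I : c.Inv T σ g h P C F d) : c.Fam (c.seg σ g h) := by
  have hgh := I.gh
  have hT := I.hT
  obtain ⟨s1, s2, s3, -, -, -, hs⟩ := Finset.card_eq_three.1 (I.perf.2.1 (h - 1) (by omega))
  have hs' : ∀ z, (z = s1 ∨ z = s2 ∨ z = s3) ↔ z ∈ c.Ω ∧ σ z + 1 = h := by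
    intro z
    have : z ∈ (c.Ω.filter fun v => σ v = h - 1) ↔ z ∈ ({s1, s2, s3} : Finset V) := by rw [hs]
    simp only [Finset.mem_filter, Finset.mem_insert, Finset.mem_singleton] at this
    rw [← this]
    exact and_congr_right fun _ => by omega
  obtain ⟨A1, A2, A3, hA⟩ : ∃ A1 A2 A3 : V × V × V,
      ∀ A, A ∈ C ++ F ↔ A = A1 ∨ A = A2 ∨ A = A3 := by
    have h1 := I.ne
    have h2 : (C ++ F).length ≤ 3 := by simpa using I.len
    generalize C ++ F = l at h1 h2
    match l, h1, h2 with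
    | [a], _, _ => exact ⟨a, a, a, by simp⟩
    | [a, b], _, _ => exact ⟨a, b, b, by simp⟩
    | [a, b, e], _, _ => exact ⟨a, b, e, by simp⟩
  have e1 := (hs' s1).1 (by simp)
  have e2 := (hs' s2).1 (by simp)
  have e3 := (hs' s3).1 (by simp)
  refine ⟨(s1, s2, s3), d, A1, A2, A3, ⟨Or.inl e1.1, Or.inl e2.1, Or.inl e3.1⟩, I.okd.1, I.okd.2,
    I.okA _ ((hA _).2 (by simp)), I.okA _ ((hA _).2 (by simp)), I.okA _ ((hA _).2 (by simp)),
    fun z => ?_⟩
  simp only [seg, Finset.mem_filter]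
  refine and_congr_right fun hz => ⟨fun ⟨a, b⟩ => ?_, ?_⟩
  · by_cases hp : z ∈ P
    · exact Or.inl ((hs' z).2 ⟨hz, I.pin z hp⟩)
    · refine Or.inr ⟨I.lo z hz a b hp, ?_, ?_⟩
      · obtain ⟨A, hA1, hA2⟩ := I.cover z hz a b hp
        rcases (hA A).1 hA1 with rfl | rfl | rfl <;> simp [hA2]
      · rintro (k | k | k)
        · have := I.perf.2.2 _ e1.1 _ hz k; omega
        · have := I.perf.2.2 _ e2.1 _ hz k; omega
        · have := I.perf.2.2 _ e3.1 _ hz k; omega
  · rintro (k | ⟨k1, k2, k3⟩)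
    · have := ((hs' z).1 k).2; omega
    · refine ⟨I.loS z hz k1, ?_⟩
      by_contra hc
      obtain ⟨A, hA1, hA2⟩ : ∃ A ∈ C ++ F, c.inA z A := by
        rcases k2 with k | k | k
        · exact ⟨A1, (hA _).2 (by simp), k⟩
        · exact ⟨A2, (hA _).2 (by simp), k⟩
        · exact ⟨A3, (hA _).2 (by simp), k⟩
      obtain ⟨x, hx, -, hx2, hx3⟩ := I.M σ (Rel.refl I.perf I.pin) z hz (by omega) A hA1 hA2
      apply k3
      rcases (hs' x).2 ⟨hx, hx2⟩ with rfl | rfl | rfl <;> simp [hx3]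

/-- exchanging two jobs -/
theorem Perfect.swap {T : ℕ} {σ : V → ℕ} (hσ : c.Perfect T σ) {y a : V} (hy : y ∈ c.Ω)
    (ha : a ∈ c.Ω) (hya : σ y < σ a) (h1 : ∀ w ∈ c.Ω, c.r y w → σ a < σ w)
    (h2 : ∀ b ∈ c.Ω, c.r b a → σ b < σ y) : c.Perfect T (fun v => σ (Equiv.swap y a v)) := by
  have hm : ∀ v, v ∈ c.Ω → Equiv.swap y a v ∈ c.Ω := by
    intro v hv
    rw [Equiv.swap_apply_def]
    split_ifs <;> assumption
  refine ⟨fun v hv => hσ.1 _ (hm v hv), fun t ht => ?_, fun u hu v hv huv => ?_⟩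
  · rw [← hσ.2.1 t ht]
    refine Finset.card_nbij' (Equiv.swap y a) (Equiv.swap y a) ?_ ?_ ?_ ?_
    · intro v hv
      simp only [Finset.coe_filter, Set.mem_ofPred_eq] at hv ⊢
      exact ⟨hm v hv.1, hv.2⟩
    · intro v hv
      simp only [Finset.coe_filter, Set.mem_ofPred_eq, Equiv.swap_apply_self] at hv ⊢
      exact ⟨hm v hv.1, hv.2⟩
    · intro v _; simp
    · intro v _; simp
  · have k := hσ.2.2 u hu v hv huv
    simp only [Equiv.swap_apply_def]
    split_ifs with a1 a2 a3 a4 a5 a6 a7 a8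
    · subst a1; subst a2; exact absurd huv (irrefl _)
    · subst a1; subst a3; have := h1 _ hv huv; omega
    · subst a1; exact h1 _ hv huv
    · subst a4; subst a5; omega
    · subst a4; subst a6; exact absurd huv (irrefl _)
    · subst a4; omega
    · subst a7; omega
    · subst a8; exact h2 _ hu huv
    · exact k

section steps

variable {T g h : ℕ} {σ : V → ℕ} {P : Finset V} {C F : List (V × V × V)} {d : V × V}

theorem Inv.exists_free (I : c.Inv T σ g h P C F d) (hP : P.card < 3) :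
    ∃ x ∈ c.Ω, σ x + 1 = h ∧ x ∉ P := by
  have hgh := I.gh
  have hT := I.hT
  have h3 := I.perf.2.1 (h - 1) (by omega)
  obtain ⟨x, hx, hxP⟩ := Finset.exists_mem_notMem_of_card_lt_card (h3 ▸ hP)
  rw [Finset.mem_filter] at hx
  exact ⟨x, hx.1, by omega, hxP⟩

theorem Inv.select1 (I : c.Inv T σ g h P C F d) (hP : P.card < 3) :
    ∃ C' F', c.Inv T σ g h P C' F' d ∧
      ∃ x ∈ c.Ω, g ≤ σ x ∧ σ x < h ∧ x ∉ P ∧ ∀ A ∈ C', ¬ c.inA x A := by
  by_cases hc : ∃ x ∈ c.Ω, g ≤ σ x ∧ σ x < h ∧ x ∉ P ∧ ∀ A ∈ C, ¬ c.inA x A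
  · exact ⟨C, F, I, hc⟩
  push Not at hc
  have hgh := I.gh
  obtain ⟨x, hx, hx1, hxP⟩ := I.exists_free hP
  obtain ⟨p, q, hpq⟩ : ∃ p q, ∀ z, z ∈ P ↔ z = p ∨ z = q := by
    have h0 : P.card ≠ 0 := by
      intro h0
      obtain ⟨A, hA, -⟩ := hc x hx (by omega) (by omega) hxP
      have := I.lenC
      have := List.length_pos_of_mem hA
      omega
    rcases (by omega : P.card = 1 ∨ P.card = 2) with h1 | h1
    · obtain ⟨p, rfl⟩ := Finset.card_eq_one.1 h1
      exact ⟨p, p, by simp⟩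
    · obtain ⟨p, q, -, rfl⟩ := Finset.card_eq_two.1 h1
      exact ⟨p, q, by simp⟩
  have hp := (hpq p).2 (by simp)
  have hq := (hpq q).2 (by simp)
  have hB : ∀ z ∈ c.Ω, c.inA z (p, q, c.o) → σ z + 1 < h := by
    intro z hz hA
    rcases hA.1 with k | k | k
    · exact absurd (k ▸ I.pinΩ p hp) c.o_not
    · have := I.perf.2.2 _ hz _ (I.pinΩ p hp) k
      have := I.pin p hp
      omega
    · have := I.perf.2.2 _ hz _ (I.pinΩ q hq) k
      have := I.pin q hq
      omega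
  refine ⟨[(p, q, c.o)], C, ?_, x, hx, by omega, by omega, hxP, ?_⟩
  · refine ⟨I.perf, I.gh, I.hT, I.pinΩ, I.pin, ?_, I.lo, ?_, I.loS, ?_, ?_, ?_, by simp, ?_,
      I.okd, ?_⟩
    · intro v hv a b e
      obtain ⟨A, hA, hA'⟩ := hc v hv a b e
      exact ⟨A, by simp [hA], hA'⟩
    · intro z hz A hA hA'
      rcases List.mem_cons.1 hA with rfl | hA
      · have := hB z (I.pinΩ z hz) hA'
        have := I.pin z hz
        omega
      · exact I.pinU z hz A (by simp at hA; simp [hA]) hA'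
    · intro z hz v hv
      refine ⟨(p, q, c.o), by simp, ?_, Or.inl rfl⟩
      rcases (hpq z).1 hz with rfl | rfl
      · exact Or.inr (Or.inl hv)
      · exact Or.inr (Or.inr hv)
    · exact Finset.card_pos.2 ⟨p, hp⟩
    · have := I.lenC
      simp only [List.length_singleton]
      omega
    · intro A hA
      rcases List.mem_cons.1 hA with rfl | hA
      · exact ⟨Or.inl (I.pinΩ p hp), Or.inl (I.pinΩ q hq), Or.inr rfl⟩
      · exact I.okA A (by simp at hA; simp [hA])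
    · intro σ' h' z hz a A hA hA'
      rcases List.mem_cons.1 hA with rfl | hA
      · have := hB z hz hA'
        omega
      · exact I.M σ' h' z hz a A (by simp at hA; simp [hA]) hA'
  · intro A hA hA'
    rw [List.mem_singleton] at hA
    subst hA
    have := hB x hx hA'
    omega

theorem Inv.select2 (F : List (V × V × V)) (I : c.Inv T σ g h P C F d)
    (hx : ∃ x ∈ c.Ω, g ≤ σ x ∧ σ x < h ∧ x ∉ P ∧ ∀ A ∈ C, ¬ c.inA x A) :
    ∃ A F', c.Inv T σ g h P C (A :: F') d ∧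
      ∃ x ∈ c.Ω, g ≤ σ x ∧ σ x < h ∧ x ∉ P ∧ ∀ B ∈ C ++ F', ¬ c.inA x B := by
  induction F with
  | nil =>
    obtain ⟨x, hx, a, b, e, k⟩ := hx
    obtain ⟨A, hA, hA'⟩ := I.cover x hx a b e
    exact absurd hA' (k A (by simpa using hA))
  | cons A F ih =>
    by_cases hc : ∃ x ∈ c.Ω, g ≤ σ x ∧ σ x < h ∧ x ∉ P ∧ ∀ B ∈ C ++ F, ¬ c.inA x B
    · exact ⟨A, F, I, hc⟩
    push Not at hc
    have sub : ∀ B ∈ C ++ F, B ∈ C ++ A :: F := by
      intro B hB
      simp only [List.mem_append, List.mem_cons] at hB ⊢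
      tauto
    refine ih ⟨I.perf, I.gh, I.hT, I.pinΩ, I.pin, hc, I.lo, fun p hp B hB => I.pinU p hp B (sub B hB),
      I.loS, I.predP, I.lenC, ?_, ?_, fun B hB => I.okA B (sub B hB), I.okd,
      fun σ' h' z hz a B hB => I.M σ' h' z hz a B (sub B hB)⟩
    · have := I.len
      simp only [List.length_cons] at this
      omega
    · obtain ⟨x, hx, a, b, e, -⟩ := hx
      obtain ⟨B, hB, -⟩ := hc x hx a b e
      exact List.ne_nil_of_mem hB

/-- `y` is the worst private job of the free atom -/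
structure Sel (c : Ctx V L) (σ : V → ℕ) (g h : ℕ) (P : Finset V) (C F : List (V × V × V))
    (y : V) : Prop where
  mem : y ∈ c.Ω
  lo : g ≤ σ y
  hi : σ y < h
  notP : y ∉ P
  priv : ∀ B ∈ C ++ F, ¬ c.inA y B
  max : ∀ v ∈ c.Ω, g ≤ σ v → σ v < h → v ∉ P → (∀ B ∈ C ++ F, ¬ c.inA v B) → c.π v ≤ c.π y

theorem Inv.select (I : c.Inv T σ g h P C F d) (hP : P.card < 3) :
    ∃ C' A F' y, c.Inv T σ g h P C' (A :: F') d ∧ Sel c σ g h P C' F' y := by
  classical
  obtain ⟨C', F', I', hx⟩ := I.select1 hP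
  obtain ⟨A, F'', I'', x, hx⟩ := I'.select2 F' hx
  obtain ⟨y, hy, hm⟩ := Finset.exists_max_image
    (c.Ω.filter fun x => g ≤ σ x ∧ σ x < h ∧ x ∉ P ∧ ∀ B ∈ C' ++ F'', ¬ c.inA x B) c.π
    ⟨x, Finset.mem_filter.2 hx⟩
  rw [Finset.mem_filter] at hy
  exact ⟨C', A, F'', y, I'', hy.1, hy.2.1, hy.2.2.1, hy.2.2.2.1, hy.2.2.2.2,
    fun v hv a b e k => hm v (Finset.mem_filter.2 ⟨hv, a, b, e, k⟩)⟩

variable {A : V × V × V} {y : V}

theorem Sel.move {τ : V → ℕ} (S : Sel c σ g h P C F y) (hτ : c.Rel T σ g h P τ) :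
    Sel c τ g h P C F y := by
  have h1 := hτ.cases S.mem
  have h2 := S.lo
  have h3 := S.hi
  refine ⟨S.mem, by omega, by omega, S.notP, S.priv, fun v hv a b => ?_⟩
  have := hτ.cases hv
  exact S.max v hv (by omega) (by omega)

theorem Sel.inA (S : Sel c σ g h P C F y) (I : c.Inv T σ g h P C (A :: F) d) : c.inA y A := by
  obtain ⟨B, hB, hB'⟩ := I.cover y S.mem S.lo S.hi S.notP
  simp only [List.mem_append, List.mem_cons] at hB
  rcases hB with hB | rfl | hB
  · exact absurd hB' (S.priv B (by simp [hB]))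
  · exact hB'
  · exact absurd hB' (S.priv B (by simp [hB]))

theorem Sel.trunc_iff (S : Sel c σ g h P C F y) (z : V) :
    c.inA z (A.1, A.2.1, y) ↔ (A.1 = c.o ∨ c.r z A.1 ∨ c.r z A.2.1) ∧ c.π z < c.π y := by
  have : y ≠ c.o := fun e => c.o_not (e ▸ S.mem)
  simp [Ctx.inA, this]

theorem Sel.trunc_sub (S : Sel c σ g h P C F y) (I : c.Inv T σ g h P C (A :: F) d) {z : V}
    (hz : c.inA z (A.1, A.2.1, y)) : c.inA z A := by
  rw [S.trunc_iff] at hz
  refine ⟨hz.1, ?_⟩
  rcases (S.inA I).2 with k | k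
  · exact Or.inl k
  · exact Or.inr (hz.2.trans k)

theorem Sel.maximal (S : Sel c σ g h P C F y) (I : c.Inv T σ g h P C (A :: F) d) {w : V}
    (hw : w ∈ c.Ω) (hyw : c.r y w) : h ≤ σ w := by
  by_contra hc
  have h1 := I.perf.2.2 _ S.mem _ hw hyw
  have h2 := S.lo
  by_cases hp : w ∈ P
  · obtain ⟨B, hB, hB'⟩ := I.predP w hp y hyw
    exact S.priv B (by simp [hB]) hB'
  · have := S.max w hw (by omega) (by omega) hp fun B hB hB' => S.priv B hB (inA_down hyw hB')
    exact absurd (c.mono hyw) (not_lt.2 this)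

theorem Sel.cover (S : Sel c σ g h P C F y) (I : c.Inv T σ g h P C (A :: F) d) {v : V}
    (hv : v ∈ c.Ω) (a : g ≤ σ v) (b : σ v < h) (e : v ∉ P) (hvy : v ≠ y) :
    ∃ B ∈ (A.1, A.2.1, y) :: (C ++ F), c.inA v B := by
  by_cases hc : ∃ B ∈ C ++ F, c.inA v B
  · obtain ⟨B, hB, hB'⟩ := hc
    exact ⟨B, List.mem_cons_of_mem _ hB, hB'⟩
  push Not at hc
  refine ⟨_, List.mem_cons_self, (S.trunc_iff v).2 ⟨?_, ?_⟩⟩
  · obtain ⟨B, hB, hB'⟩ := I.cover v hv a b e
    simp only [List.mem_append, List.mem_cons] at hB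
    rcases hB with hB | rfl | hB
    · exact absurd hB' (hc B (by simp [hB]))
    · exact hB'.1
    · exact absurd hB' (hc B (by simp [hB]))
  · exact lt_of_le_of_ne (S.max v hv a b e hc) fun k => hvy (c.inj k)

theorem Sel.old (S : Sel c σ g h P C F y) (I : c.Inv T σ g h P C (A :: F) d) {z : V}
    {B : V × V × V} (hB : B ∈ (A.1, A.2.1, y) :: (C ++ F)) (hz : c.inA z B) :
    ∃ B' ∈ C ++ A :: F, c.inA z B' := by
  rcases List.mem_cons.1 hB with rfl | hB
  · exact ⟨A, by simp, S.trunc_sub I hz⟩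
  · refine ⟨B, ?_, hz⟩
    simp only [List.mem_append, List.mem_cons] at hB ⊢
    tauto

theorem Sel.not_self (S : Sel c σ g h P C F y) {B : V × V × V}
    (hB : B ∈ (A.1, A.2.1, y) :: (C ++ F)) : ¬ c.inA y B := by
  rcases List.mem_cons.1 hB with rfl | hB
  · rw [S.trunc_iff]; exact fun k => lt_irrefl _ k.2
  · exact S.priv B hB

theorem Sel.ok (S : Sel c σ g h P C F y) (I : c.Inv T σ g h P C (A :: F) d) {B : V × V × V}
    (hB : B ∈ (A.1, A.2.1, y) :: (C ++ F)) : c.OkT B := by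
  rcases List.mem_cons.1 hB with rfl | hB
  · have := I.okA A (by simp)
    exact ⟨this.1, this.2.1, Or.inl S.mem⟩
  · refine I.okA B ?_
    simp only [List.mem_append, List.mem_cons] at hB ⊢
    tauto

theorem Sel.pred (S : Sel c σ g h P C F y) (I : c.Inv T σ g h P C (A :: F) d) {v : V}
    (hv : c.r v y) : c.inA v (A.1, A.2.1, y) :=
  (S.trunc_iff v).2 ⟨(inA_down hv (S.inA I)).1, c.mono hv⟩

theorem Sel.pin (S : Sel c σ g h P C F y) (I : c.Inv T σ g h P C (A :: F) d)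
    (hy : σ y + 1 = h) : c.Inv T σ g h (insert y P) ((A.1, A.2.1, y) :: C) F d := by
  refine ⟨I.perf, I.gh, I.hT, ?_, ?_, ?_, ?_, ?_, I.loS, ?_, ?_, ?_, by simp,
    fun B hB => S.ok I hB, I.okd, ?_⟩
  · intro p hp
    rcases Finset.mem_insert.1 hp with rfl | hp
    · exact S.mem
    · exact I.pinΩ p hp
  · intro p hp
    rcases Finset.mem_insert.1 hp with rfl | hp
    · exact hy
    · exact I.pin p hp
  · intro v hv a b e
    rw [Finset.mem_insert, not_or] at e
    exact S.cover I hv a b e.2 e.1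
  · intro v hv a b e
    rw [Finset.mem_insert, not_or] at e
    exact I.lo v hv a b e.2
  · intro p hp B hB hB'
    rcases Finset.mem_insert.1 hp with rfl | hp
    · exact S.not_self hB hB'
    · obtain ⟨B', k1, k2⟩ := S.old I hB hB'
      exact I.pinU p hp B' k1 k2
  · intro p hp v hv
    rcases Finset.mem_insert.1 hp with rfl | hp
    · exact ⟨_, List.mem_cons_self, S.pred I hv⟩
    · obtain ⟨B, k1, k2⟩ := I.predP p hp v hv
      exact ⟨B, List.mem_cons_of_mem _ k1, k2⟩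
  · rw [Finset.card_insert_of_notMem S.notP, List.length_cons]
    have := I.lenC
    omega
  · have := I.len
    simp only [List.length_cons] at this ⊢
    omega
  · intro σ' h' z hz a B hB hB'
    obtain ⟨B', k1, k2⟩ := S.old I hB hB'
    obtain ⟨x, hx, x1, x2, x3⟩ := I.M σ' ⟨h'.1, h'.2.1, h'.2.2.1,
      fun p hp => h'.2.2.2 p (Finset.mem_insert_of_mem hp)⟩ z hz a B' k1 k2
    refine ⟨x, hx, ?_, x2, x3⟩
    rw [Finset.mem_insert, not_or]
    refine ⟨?_, x1⟩
    rintro rfl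
    exact S.not_self hB (inA_down x3 hB')

theorem Sel.rel_left (_S : Sel c σ g h P C F y) (I : c.Inv T σ g h P C (A :: F) d)
    (hy : σ y + 1 < h) {τ : V → ℕ} (hτ : c.Rel T σ g (σ y + 1) {y} τ) : c.Rel T σ g h P τ := by
  refine ⟨hτ.1, fun v hv a b => ?_, fun v hv a => hτ.2.2.1 v hv (by omega), fun p hp => ?_⟩
  · have := hτ.cases hv
    omega
  · have := I.pin p hp
    rw [hτ.2.2.1 p (I.pinΩ p hp) (by omega)]
    exact this

/-- the exchange argument -/
theorem Sel.key (S : Sel c σ g h P C F y) (I : c.Inv T σ g h P C (A :: F) d)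
    (hy : σ y + 1 < h) (hmax : ∀ τ, c.Rel T σ g h P τ → τ y ≤ σ y) {τ : V → ℕ}
    (hτ : c.Rel T σ g (σ y + 1) {y} τ) :
    ∀ (k : ℕ) (a : V), σ a = k → a ∈ c.Ω → σ y < σ a → σ a < h → a ∉ P →
      ∃ x ∈ c.Ω, x ≠ y ∧ τ x = σ y ∧ c.r x a := by
  intro k
  induction k using Nat.strong_induction_on with
  | _ k ih =>
    intro a hk ha a1 a2 a3
    by_contra hc
    push Not at hc
    have hτy : τ y = σ y := by
      have := hτ.2.2.2 y (by simp)
      omega
    have hτa : τ a = σ a := hτ.2.2.1 a ha (by omega)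
    have hR := S.rel_left I hy hτ
    have hlo := S.lo
    have hsw : c.Perfect T (fun v => τ (Equiv.swap y a v)) := by
      refine hτ.1.swap S.mem ha (by omega) (fun w hw k => ?_) (fun b hb k => ?_)
      · have := S.maximal I hw k
        rw [hτ.2.2.1 w hw (by omega)]
        omega
      · by_contra hb'
        have hby : b ≠ y := by
          rintro rfl
          have := S.maximal I ha k
          omega
        rcases (by omega : τ b = σ y ∨ σ y < τ b) with e | e
        · exact hc b hb hby e k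
        · have e1 := hτ.cases hb
          have e2 := I.perf.2.2 _ hb _ ha k
          obtain ⟨x, hx, x1, x2, x3⟩ := ih (σ b) (by omega) b rfl hb (by omega) (by omega)
            (fun hp => by have := I.pin b hp; omega)
          exact hc x hx x1 x2 (c.trans x3 k)
    have := hmax _ (hR.trans ⟨hsw, fun v hv b1 b2 => ?_, fun v hv b => ?_, fun p hp => ?_⟩)
    · simp only [Equiv.swap_apply_left] at this
      omega
    · simp only [Equiv.swap_apply_def]
      split_ifs <;> omega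
    · simp only [Equiv.swap_apply_def]
      split_ifs with e1 e2
      · subst e1; omega
      · subst e2; omega
      · rfl
    · have e1 : p ≠ y := fun e => S.notP (e ▸ hp)
      have e2 : p ≠ a := fun e => a3 (e ▸ hp)
      show τ (Equiv.swap y a p) + 1 = h
      rw [Equiv.swap_apply_of_ne_of_ne e1 e2]
      exact hR.2.2.2 p hp

theorem Sel.left (S : Sel c σ g h P C F y) (I : c.Inv T σ g h P C (A :: F) d)
    (hy : σ y + 1 < h) (hmax : ∀ τ, c.Rel T σ g h P τ → τ y ≤ σ y) :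
    c.Inv T σ g (σ y + 1) {y} [(A.1, A.2.1, y)] (C ++ F) d := by
  have hlo := S.lo
  have hT := I.hT
  have nP : ∀ v, σ v < σ y + 1 → v ∉ P := fun v b hp => by have := I.pin v hp; omega
  refine ⟨I.perf, by omega, by omega, by simpa using S.mem, by simp, ?_, ?_, ?_, I.loS, ?_,
    by simp, ?_, by simp, fun B hB => S.ok I hB, I.okd, ?_⟩
  · intro v hv a b e
    exact S.cover I hv a (by omega) (nP v b) (by simpa using e)
  · intro v hv a b _
    exact I.lo v hv a (by omega) (nP v b)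
  · intro p hp B hB
    rw [Finset.mem_singleton] at hp
    subst hp
    exact S.not_self hB
  · intro p hp v hv
    rw [Finset.mem_singleton] at hp
    subst hp
    exact ⟨_, List.mem_cons_self, S.pred I hv⟩
  · have := I.len
    simp only [List.length_cons, List.length_append, List.length_nil] at this ⊢
    omega
  · intro τ hτ z hz a B hB hB'
    obtain ⟨B', k1, k2⟩ := S.old I hB hB'
    by_cases hzh : σ z < h
    · obtain ⟨x, hx, x1, x2, x3⟩ := S.key I hy hmax hτ _ z rfl hz (by omega) hzh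
        (fun hp => I.pinU z hp B' k1 k2)
      exact ⟨x, hx, by simpa using x1, by omega, x3⟩
    · obtain ⟨w, hw, w1, w2, w3⟩ := I.M σ (Rel.refl I.perf I.pin) z hz (by omega) B' k1 k2
      obtain ⟨x, hx, x1, x2, x3⟩ := S.key I hy hmax hτ _ w rfl hw (by omega) (by omega) w1
      exact ⟨x, hx, by simpa using x1, by omega, c.trans x3 w3⟩

theorem Sel.right (S : Sel c σ g h P C F y) (I : c.Inv T σ g h P C (A :: F) d)
    (hy : σ y + 1 < h) (hmax : ∀ τ, c.Rel T σ g h P τ → τ y ≤ σ y) :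
    ∃ d', c.Inv T σ (σ y + 1) h P C (A :: F) d' := by
  have hlo := S.lo
  have hT := I.hT
  have h3 := I.perf.2.1 (σ y) (by omega)
  have h2 : ((c.Ω.filter fun v => σ v = σ y).erase y).card = 2 := by
    rw [Finset.card_erase_of_mem (by simp [S.mem]), h3]
  obtain ⟨p, q, -, hpq⟩ := Finset.card_eq_two.1 h2
  have hm : ∀ x, (x = p ∨ x = q) ↔ x ≠ y ∧ x ∈ c.Ω ∧ σ x = σ y := by
    intro x
    have : x ∈ ((c.Ω.filter fun v => σ v = σ y).erase y) ↔ x ∈ ({p, q} : Finset V) := by rw [hpq]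
    simp only [Finset.mem_erase, Finset.mem_filter, Finset.mem_insert,
      Finset.mem_singleton] at this
    exact this.symm
  have hp := (hm p).1 (by simp)
  have hq := (hm q).1 (by simp)
  refine ⟨(p, q), I.perf, hy, hT, I.pinΩ, I.pin, fun v hv a => I.cover v hv (by omega), ?_,
    I.pinU, ?_, I.predP, I.lenC, I.len, I.ne, I.okA, ⟨Or.inl hp.2.1, Or.inl hq.2.1⟩, ?_⟩
  · intro v hv a b e
    obtain ⟨x, hx, x1, x2, x3⟩ := S.key I hy hmax (Rel.refl I.perf (by simp)) _ v rfl hv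
      (by omega) b e
    rcases (hm x).2 ⟨x1, hx, x2⟩ with rfl | rfl
    · exact Or.inr (Or.inl x3)
    · exact Or.inr (Or.inr x3)
  · rintro v hv (k | k | k)
    · exact absurd (k ▸ hp.2.1) c.o_not
    · have := I.perf.2.2 _ hp.2.1 _ hv k
      omega
    · have := I.perf.2.2 _ hq.2.1 _ hv k
      omega
  · intro τ hτ
    refine I.M τ ⟨hτ.1, fun v hv a b => ?_, fun v hv a => hτ.2.2.1 v hv (by omega), hτ.2.2.2⟩
    have := hτ.cases hv
    omega

theorem Inv.slot_eq (I : c.Inv T σ g h P C F d) (hP : 3 ≤ P.card) {τ : V → ℕ}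
    (hτ : c.Rel T σ g h P τ) {x : V} (hx : x ∈ c.Ω) (h1 : τ x + 1 = h) : x ∈ P := by
  have hT := I.hT
  have h3 := hτ.1.2.1 (h - 1) (by omega)
  have hs : P ⊆ c.Ω.filter fun v => τ v = h - 1 := fun p hp =>
    Finset.mem_filter.2 ⟨I.pinΩ p hp, by have := hτ.2.2.2 p hp; omega⟩
  rw [Finset.eq_of_subset_of_card_le hs (by omega)]
  exact Finset.mem_filter.2 ⟨hx, by omega⟩

theorem Inv.peel (I : c.Inv T σ g h P C F d) (hP : 3 ≤ P.card) (hg : g + 1 < h) :
    c.Inv T σ g (h - 1) ∅ [] (C ++ F) d := by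
  have hT := I.hT
  have nP : ∀ v, σ v < h - 1 → v ∉ P := fun v b hp => by have := I.pin v hp; omega
  refine ⟨I.perf, by omega, by omega, by simp, by simp,
    fun v hv a b _ => I.cover v hv a (by omega) (nP v b),
    fun v hv a b _ => I.lo v hv a (by omega) (nP v b), by simp, I.loS, by simp, by simp,
    by simpa using I.len, I.ne, I.okA, I.okd, ?_⟩
  intro τ _ z hz a B hB hB'
  exfalso
  by_cases hzh : σ z < h
  · exact I.pinU z (I.slot_eq hP (Rel.refl I.perf I.pin) hz (by omega)) B hB hB'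
  · obtain ⟨x, hx, x1, x2, -⟩ := I.M σ (Rel.refl I.perf I.pin) z hz (by omega) B hB hB'
    exact x1 (I.slot_eq hP (Rel.refl I.perf I.pin) hx x2)

end steps

theorem der_slot {T t : ℕ} {σ : V → ℕ} (hσ : c.Perfect T σ) (ht : t < T) :
    c.Der (c.seg σ t (t + 1)) := by
  refine Der.leaf _ (Finset.filter_subset _ _) ?_ ?_
  · rw [← hσ.2.1 t ht]
    unfold seg
    congr 1
    exact Finset.filter_congr fun v _ => by omega
  · intro u hu v hv k
    simp only [seg, Finset.mem_filter] at hu hv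
    have := hσ.2.2 u hu.1 v hv.1 k
    omega

theorem der_join {T g f h : ℕ} {σ : V → ℕ} (hσ : c.Perfect T σ) (h1 : g ≤ f) (h2 : f ≤ h)
    (a : c.Der (c.seg σ g f)) (b : c.Der (c.seg σ f h)) (hF : c.Fam (c.seg σ g h)) :
    c.Der (c.seg σ g h) := by
  have e : c.seg σ g h = c.seg σ g f ∪ c.seg σ f h := by
    ext v
    simp only [seg, Finset.mem_filter, Finset.mem_union]
    by_cases hv : v ∈ c.Ω <;> simp only [hv, true_and, false_and, or_self]
    omega
  rw [e] at hF ⊢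
  refine Der.node _ _ a b ?_ ?_ hF
  · rw [Finset.disjoint_left]
    intro v hu hv
    simp only [seg, Finset.mem_filter] at hu hv
    omega
  · intro u hu v hv k
    simp only [seg, Finset.mem_filter] at hu hv
    have := hσ.2.2 u hu.1 v hv.1 k
    omega

theorem Inv.der {T : ℕ} : ∀ (k : ℕ) {g h : ℕ} {σ : V → ℕ} {P : Finset V}
    {C F : List (V × V × V)} {d : V × V}, 4 * (h - g) + (3 - P.card) = k →
    c.Inv T σ g h P C F d → c.Der (c.seg σ g h) := by
  intro k
  induction k using Nat.strong_induction_on with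
  | _ k ih =>
    intro g h σ P C F d hk I
    have hgh := I.gh
    have hT := I.hT
    by_cases h1 : h = g + 1
    · subst h1
      exact der_slot I.perf (by omega)
    by_cases hP : 3 ≤ P.card
    · have a := ih _ (by simp; omega) rfl (I.peel hP (by omega))
      have b := der_slot I.perf (show h - 1 < T by omega)
      rw [show h - 1 + 1 = h by omega] at b
      exact der_join I.perf (by omega) (by omega) a b I.fam
    obtain ⟨C', A, F', y, I', S⟩ := I.select (by omega)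
    obtain ⟨τ, hτ, hm⟩ := (InvImage.wf (fun τ : V → ℕ => T - τ y) Nat.lt_wfRel.wf).has_min
      {τ | c.Rel T σ g h P τ} ⟨σ, Rel.refl I.perf I.pin⟩
    have hτ : c.Rel T σ g h P τ := hτ
    have hmax : ∀ τ', c.Rel T τ g h P τ' → τ' y ≤ τ y := by
      intro τ' h'
      have k1 : ¬ (T - τ' y < T - τ y) := hm τ' (hτ.trans h')
      have k2 := h'.1.1 y S.mem
      omega
    rw [← hτ.seg_eq]
    have I2 := I'.move hτ
    have S2 := S.move hτ
    have hlo := S2.lo
    have hhi := S2.hi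
    by_cases hy : τ y + 1 = h
    · refine ih _ ?_ rfl (S2.pin I2 hy)
      rw [Finset.card_insert_of_notMem S.notP]
      omega
    · obtain ⟨d', I3⟩ := S2.right I2 (by omega) hmax
      exact der_join I2.perf (by omega) (by omega)
        (ih _ (by simp; omega) rfl (S2.left I2 (by omega) hmax)) (ih _ (by omega) rfl I3) I2.fam

/-- **Structure theorem**: if the jobs have a perfect schedule, the dynamic programme finds them. -/
theorem der_of_perfect {T : ℕ} {σ : V → ℕ} (hσ : c.Perfect T σ) (hT : 0 < T) : c.Der c.Ω := by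
  have I : c.Inv T σ 0 T ∅ [] [(c.o, c.o, c.o)] (c.o, c.o) := by
    refine ⟨hσ, hT, le_rfl, by simp, by simp, ?_, fun _ _ _ _ _ => Or.inl rfl, by simp, by simp,
      by simp, by simp, by simp, by simp, ?_, ⟨Or.inr rfl, Or.inr rfl⟩, ?_⟩
    · intro v _ _ _ _
      exact ⟨_, List.mem_cons_self, Or.inl rfl, Or.inl rfl⟩
    · intro A hA
      simp only [List.nil_append, List.mem_singleton] at hA
      subst hA
      exact ⟨Or.inr rfl, Or.inr rfl, Or.inr rfl⟩
    · intro _ _ z hz a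
      have := hσ.1 z hz
      omega
  have := Inv.der _ rfl I
  rwa [show c.seg σ 0 T = c.Ω from
    Finset.filter_true_of_mem fun v hv => ⟨Nat.zero_le _, hσ.1 v hv⟩] at this

end Ctx

end Crest.Agent.R286
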