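import Crest.Agent.R286.Alg
import Crest.Agent.R286.Math
import Crest.Prelude.Def_Sched3

/-!
# Row 286: correctness of the algorithm  (helper94)
-/

set_option autoImplicit false

namespace Crest.Agent.R286

open Function Crest.Agent.Lib.PolyTime Crest.Enc Crest.Sched3

/-! ### Padding a schedule to a perfect one -/

theorem fib_sum {T m : ℕ} {σ : ℕ → ℕ} (h1 : ∀ v < m, σ v < T) :
    m = ∑ t ∈ Finset.range T, ((Finset.range m).filter fun v => σ v = t).card := by
  rw [← Finset.card_eq_sum_card_fiberwise (f := σ) fun v hv => by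
    simpa using h1 v (by simpa using hv)]
  simp

theorem pad_le {T m : ℕ} {σ : ℕ → ℕ} (h1 : ∀ v < m, σ v < T)
    (h3 : ∀ t, ((Finset.range m).filter fun v => σ v = t).card ≤ 3) : m ≤ 3 * T := by
  rw [fib_sum h1]
  refine (Finset.sum_le_card_nsmul _ _ 3 fun t _ => h3 t).trans ?_
  simp [mul_comm]

theorem pad {T : ℕ} : ∀ (k m : ℕ) (σ : ℕ → ℕ), m + k = 3 * T → (∀ v < m, σ v < T) →
    (∀ t, ((Finset.range m).filter fun v => σ v = t).card ≤ 3) →
    ∃ σ' : ℕ → ℕ, (∀ v < m, σ' v = σ v) ∧ (∀ v < 3 * T, σ' v < T) ∧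
      ∀ t < T, ((Finset.range (3 * T)).filter fun v => σ' v = t).card = 3 := by
  intro k
  induction k with
  | zero =>
    intro m σ hm h1 h3
    obtain rfl : m = 3 * T := by omega
    refine ⟨σ, fun _ _ => rfl, h1, fun t ht => ?_⟩
    by_contra hc
    have := Finset.sum_lt_sum (s := Finset.range T) (g := fun _ => 3) (fun t _ => h3 t)
      ⟨t, Finset.mem_range.2 ht, lt_of_le_of_ne (h3 t) hc⟩
    rw [← fib_sum h1] at this
    simp at this
    omega
  | succ k ih =>
    intro m σ hm h1 h3
    obtain ⟨t, ht, hlt⟩ : ∃ t < T, ((Finset.range m).filter fun v => σ v = t).card < 3 := by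
      by_contra hc
      push Not at hc
      have := Finset.sum_le_sum (s := Finset.range T) (f := fun _ => 3)
        fun t ht => hc t (Finset.mem_range.1 ht)
      rw [← fib_sum h1] at this
      simp at this
      omega
    obtain ⟨σ', a, b, e⟩ := ih (m + 1) (update σ m t) (by omega) (fun v hv => by
      by_cases h : v = m
      · subst h; simpa using ht
      · rw [update_of_ne h]; exact h1 v (by omega)) (fun s => by
      have e : ((Finset.range m).filter fun v => update σ m t v = s) =
          (Finset.range m).filter fun v => σ v = s :=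
        Finset.filter_congr fun v hv => by
          rw [update_of_ne (Finset.mem_range.1 hv).ne]
      rw [Finset.range_add_one, Finset.filter_insert, e]
      split_ifs with h
      · rw [update_self] at h
        subst h
        exact (Finset.card_insert_le _ _).trans hlt
      · exact h3 s)
    exact ⟨σ', fun v hv => by rw [a v (by omega), update_of_ne hv.ne], b, e⟩

/-! ### Parsing -/

theorem natCode_prefix {k n : ℕ} {r s : List Bool} (h : natCode k ++ r = natCode n ++ s) :
    k = n := by
  have key : ∀ (a b : List Bool) (r s : List Bool),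
      (a.map fun b => [true, b]).flatten ++ [false, false] ++ r =
        (b.map fun b => [true, b]).flatten ++ [false, false] ++ s → a = b := by
    intro a
    induction a with
    | nil => intro b r s h; cases b <;> simp_all
    | cons x a ih =>
      intro b r s h
      cases b with
      | nil => simp at h
      | cons y b =>
        simp only [List.map_cons, List.flatten_cons, List.cons_append, List.nil_append,
          List.cons.injEq, true_and] at h
        rw [h.1, ih b r s h.2]
  exact bits_injective (key _ _ r s h)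

theorem length_flatten_rows {n : ℕ} (l : List (List Bool)) (h : ∀ r ∈ l, r.length = n) :
    l.flatten.length = l.length * n := by
  induction l with
  | nil => simp
  | cons r l ih =>
    rw [List.flatten_cons, List.length_append, h r (by simp), ih fun s hs => h s (by simp [hs])]
    simp [Nat.succ_mul, add_comm]

theorem numJ_eq (n : ℕ) (E : Fin n → Fin n → Bool) : numJ (precCode n E) = n := by
  have hl : n < (precCode n E).length := by
    have : (precCode n E).length = (natCode n).length + n * n := by
      show (natCode n ++ (rowsOf E).flatten).length = _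
      rw [List.length_append, length_flatten_rows _ fun r hr => length_of_mem_rowsOf hr]
      simp
    rw [this, length_natCode]
    nlinarith
  unfold numJ findN
  have h1 : ∀ k ∈ (List.range (precCode n E).length).filter
      fun k => natCode k ++ (precCode n E).drop (natCode k).length == precCode n E, k = n := by
    intro k hk
    have := (List.mem_filter.1 hk).2
    rw [beq_iff_eq] at this
    exact natCode_prefix this
  have h2 : n ∈ (List.range (precCode n E).length).filter
      fun k => natCode k ++ (precCode n E).drop (natCode k).length == precCode n E := by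
    refine List.mem_filter.2 ⟨List.mem_range.2 hl, ?_⟩
    simp [precCode]
  generalize List.filter _ _ = l at h1 h2
  cases l with
  | nil => simp at h2
  | cons a l => exact h1 a (by simp)

theorem lookup_rows {n : ℕ} (l : List (List Bool)) (h : ∀ r ∈ l, r.length = n) (u v : ℕ)
    (hv : v < n) : ((dropMul l.flatten u n).drop v).headD false = (l.getD u []).getD v false ∨
      l.length ≤ u := by
  induction l generalizing u with
  | nil => simp
  | cons r l ih =>
    have hr := h r (by simp)
    cases u with
    | zero =>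
      left
      simp only [dropMul, zero_mul, List.drop_zero, List.flatten_cons, List.getD_cons_zero]
      rw [List.drop_append_of_le_length (by omega), List.drop_eq_getElem_cons (by omega)]
      simp [List.getD_eq_getElem?_getD, List.getElem?_eq_getElem (show v < r.length by omega)]
    | succ u =>
      rcases ih (fun s hs => h s (by simp [hs])) u with k | k
      · left
        rw [List.getD_cons_succ, ← k]
        simp only [dropMul, List.flatten_cons]
        rw [Nat.succ_mul, add_comm (u * n), ← hr, List.drop_length_add_append]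
      · right; simpa using k

/-! ### The transitive closure -/

section inst
variable {n : ℕ} (E : Fin n → Fin n → Bool)

/-- the edge relation on numbers -/
def E' (u v : ℕ) : Prop := ∃ (hu : u < n) (hv : v < n), E ⟨u, hu⟩ ⟨v, hv⟩ = true

theorem rel_iff {R : List (ℕ × ℕ)} {u v : ℕ} : rel R u v = true ↔ (u, v) ∈ R := by simp [rel]

theorem mem_edges {JJ : List (ℕ × ℕ)} {u v : ℕ} :
    (u, v) ∈ edges n (rowsOf E).flatten JJ ↔ (u, v) ∈ JJ ∧ E' E u v := by
  simp only [edges, List.mem_filter, Bool.and_eq_true, Nat.blt_eq]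
  refine and_congr_right fun _ => ⟨fun ⟨hu, hv, h⟩ => ⟨hu, hv, ?_⟩, fun ⟨hu, hv, h⟩ => ⟨hu, hv, ?_⟩⟩
  all_goals
    rcases lookup_rows (rowsOf E) (fun r hr => length_of_mem_rowsOf hr) u v hv with k | k
    · have := getD_rowsOf E ⟨u, hu⟩ ⟨v, hv⟩ false
      simp only at this
      rw [this] at k
      first | rwa [k] at h | rwa [k]
    · rw [length_rowsOf] at k; omega

theorem warshall (J : List ℕ) (e : ℕ → ℕ → Prop) (l : List ℕ) :
    ∀ (R : List (ℕ × ℕ)) (done : List ℕ), (∀ p ∈ R, p ∈ prodL J J ∧ Relation.TransGen e p.1 p.2) →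
      (∀ w ∈ done, ∀ u v, (u, w) ∈ R → (w, v) ∈ R → (u, v) ∈ R) →
      (∀ p ∈ l.foldl (wstep (prodL J J)) R, p ∈ prodL J J ∧ Relation.TransGen e p.1 p.2) ∧
      (∀ p ∈ R, p ∈ l.foldl (wstep (prodL J J)) R) ∧
      ∀ w, w ∈ done ∨ w ∈ l → ∀ u v, (u, w) ∈ l.foldl (wstep (prodL J J)) R →
        (w, v) ∈ l.foldl (wstep (prodL J J)) R → (u, v) ∈ l.foldl (wstep (prodL J J)) R := by
  induction l with
  | nil => intro R done h1 h2; exact ⟨h1, fun _ h => h, fun w hw => h2 w (by simpa using hw)⟩
  | cons k l ih =>
    intro R done h1 h2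
    have hm : ∀ u v, (u, v) ∈ wstep (prodL J J) R k ↔
        (u ∈ J ∧ v ∈ J) ∧ ((u, v) ∈ R ∨ ((u, k) ∈ R ∧ (k, v) ∈ R)) := by
      intro u v
      simp [wstep, rel_iff]
    obtain ⟨a, b, c⟩ := ih (wstep (prodL J J) R k) (k :: done) (by
      rintro ⟨u, v⟩ hp
      rw [hm] at hp
      refine ⟨by simpa using hp.1, ?_⟩
      rcases hp.2 with h | h
      · exact (h1 _ h).2
      · exact (h1 _ h.1).2.trans (h1 _ h.2).2) (by
      intro w hw u v hu hv
      rw [hm] at hu hv ⊢
      refine ⟨⟨hu.1.1, hv.1.2⟩, ?_⟩
      rcases List.mem_cons.1 hw with rfl | hw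
      · exact Or.inr ⟨by tauto, by tauto⟩
      · rcases hu.2 with p | p <;> rcases hv.2 with q | q
        · exact Or.inl (h2 w hw _ _ p q)
        · exact Or.inr ⟨h2 w hw _ _ p q.1, q.2⟩
        · exact Or.inr ⟨p.1, h2 w hw _ _ p.2 q⟩
        · exact Or.inr ⟨p.1, q.2⟩)
    refine ⟨a, fun p hp => b p ?_, fun w hw => c w (by simp at hw ⊢; tauto)⟩
    obtain ⟨u, v⟩ := p
    rw [hm]
    exact ⟨by simpa using (h1 _ hp).1, Or.inl hp⟩

/-- the context of the instance -/
abbrev cx : Cx := ctx n (rowsOf E).flatten

theorem closure_spec :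
    (∀ u v, rel (cx E).2.2 u v = true → Relation.TransGen (E' E) u v) ∧
    (∀ u v, E' E u v → rel (cx E).2.2 u v = true) ∧
    ∀ u w v, rel (cx E).2.2 u w = true → rel (cx E).2.2 w v = true →
      rel (cx E).2.2 u v = true := by
  obtain ⟨a, b, c⟩ := warshall (syms n) (E' E) (syms n)
    (edges n (rowsOf E).flatten (prodL (syms n) (syms n))) []
    (fun p hp => ⟨((mem_edges E).1 hp).1, .single ((mem_edges E).1 hp).2⟩) (by simp)
  simp only [rel_iff]
  refine ⟨fun u v h => (a _ h).2, fun u v h => b _ ((mem_edges E).2 ⟨?_, h⟩), fun u w v h h' =>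
    c w (Or.inr (mem_prodL.1 (a _ h).1).2) u v h h'⟩
  obtain ⟨hu, hv, -⟩ := h
  simp only [mem_prodL, syms, List.mem_range]
  omega

theorem tg_fin {u v : ℕ} (h : Relation.TransGen (E' E) u v) : ∃ (hu : u < n) (hv : v < n),
    Relation.TransGen (fun a b => E a b = true) ⟨u, hu⟩ ⟨v, hv⟩ := by
  induction h with
  | single h => obtain ⟨hu, hv, h⟩ := h; exact ⟨hu, hv, .single h⟩
  | tail _ h ih =>
    obtain ⟨hu, _, k⟩ := ih
    obtain ⟨_, hv, h⟩ := h
    exact ⟨hu, hv, k.tail h⟩

variable {E}

theorem cnt_lt (hE : Acyclic E) {u v : ℕ} (h : rel (cx E).2.2 u v = true) :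
    cnt (cx E) u < cnt (cx E) v := by
  obtain ⟨a, -, c⟩ := closure_spec E
  have e : ∀ w, cnt (cx E) w =
      ((Finset.range (n + n + n + 1)).filter fun x => rel (cx E).2.2 x w = true).card := by
    intro w
    show ((List.range (n + n + n + 1)).filter _).length = _
    rw [← List.toFinset_card_of_nodup (List.nodup_range.filter _), List.toFinset_filter,
      List.toFinset_range]
  rw [e, e]
  obtain ⟨hu, -, -⟩ := tg_fin E (a u v h)
  refine Finset.card_lt_card ⟨fun x hx => ?_, fun hs => ?_⟩
  · rw [Finset.mem_filter] at hx ⊢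
    exact ⟨hx.1, c x u v hx.2 h⟩
  · have := hs (Finset.mem_filter.2 ⟨Finset.mem_range.2 (by omega), h⟩)
    obtain ⟨_, _, k⟩ := tg_fin E (a u u (Finset.mem_filter.1 this).2)
    exact hE _ k

/-- the abstract context for the universe `range t` -/
def mc (hE : Acyclic E) (t : ℕ) (ht : t ≤ n + n + n) : Ctx ℕ (ℕ ×ₗ ℕ) where
  Ω := Finset.range t
  r u v := rel (cx E).2.2 u v = true
  π v := toLex (cnt (cx E) v, v)
  o := n + n + n
  trans h h' := (closure_spec E).2.2 _ _ _ h h'
  mono h := Prod.Lex.toLex_lt_toLex.2 (Or.inl (cnt_lt hE h))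
  inj _ _ h := (Prod.mk.inj (toLex.injective h)).2
  o_not := by simp; omega

theorem inAb_iff (hE : Acyclic E) {t : ℕ} (ht : t ≤ n + n + n) (z : ℕ) (A : T3) :
    inAb (cx E) z A = true ↔ (mc hE t ht).inA z A := by
  simp only [inAb, piLt, Ctx.inA, mc, Prod.Lex.toLex_lt_toLex, Bool.and_eq_true, Bool.or_eq_true,
    beq_iff_eq, Nat.blt_eq]
  rfl

theorem mem_triples (hE : Acyclic E) {t : ℕ} (ht : t ≤ n + n + n) {A : T3}
    (h : (mc hE t ht).OkT A) : A ∈ triples (syms n) := by
  simp only [Ctx.OkT, Ctx.Ok, mc, Finset.mem_range] at h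
  simp only [triples, mem_prodL, syms, List.mem_range]
  omega

theorem fam_desc (hE : Acyclic E) {t : ℕ} (ht : t ≤ n + n + n) {X : Finset ℕ}
    (h : (mc hE t ht).Fam X) : ∃ D ∈ descs (syms n), ∀ z, z ∈ X ↔ inDb (cx E) D z = true := by
  obtain ⟨S, d, A, B, C, hS, h1, h2, hA, hB, hC, h⟩ := h
  refine ⟨(S, ((d.1, d.2, t), A), (B, C)), ?_, fun z => ?_⟩
  · simp only [descs, mem_prodL]
    refine ⟨mem_triples hE ht hS, ⟨?_, mem_triples hE ht hA⟩, mem_triples hE ht hB,
      mem_triples hE ht hC⟩
    simp only [Ctx.Ok, mc, Finset.mem_range] at h1 h2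
    simp only [triples, mem_prodL, syms, List.mem_range]
    omega
  · rw [h]
    simp only [inDb, Bool.and_eq_true, Bool.or_eq_true, beq_iff_eq, Nat.blt_eq, inAb_iff hE ht,
      Bool.not_eq_true', ← Bool.not_eq_true, Ctx.inD, Ctx.inLo]
    simp only [mc, Finset.mem_range]
    rfl

theorem der_card {V L : Type} [DecidableEq V] [LinearOrder L] {c : Ctx V L} {X : Finset V}
    (h : c.Der X) : 3 ≤ X.card ∧ X ⊆ c.Ω := by
  induction h with
  | leaf X a b _ => exact ⟨b.ge, a⟩
  | node X Y _ _ _ _ _ ih ih' =>
    exact ⟨ih.1.trans (Finset.card_le_card Finset.subset_union_left),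
      Finset.union_subset ih.2 ih'.2⟩

theorem good_iter (c : Cx × List Desc) (k : ℕ) : ∀ o ∈ (round c)^[k] [], Good c.1 o := by
  induction k with
  | zero => simp
  | succ k ih => rw [iterate_succ_apply']; exact good_round ih

theorem der_table (hE : Acyclic E) {t : ℕ} (ht : t ≤ n + n + n) {X : Finset ℕ}
    (h : (mc hE t ht).Der X) : ∀ k, X.card ≤ 3 * k →
      ∃ o ∈ (round (cx E, descs (syms n)))^[k] [], ∀ v, v ∈ o ↔ v ∈ X := by
  have hJ : ∀ v, v ∈ (cx E).2.1 ↔ v < n + n + n + 1 := fun v => List.mem_range
  induction h with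
  | leaf X a b e =>
    intro k hk
    obtain ⟨k, rfl⟩ : ∃ j, k = j + 1 := ⟨k - 1, by omega⟩
    obtain ⟨x, y, z, hxy, hxz, hyz, rfl⟩ := Finset.card_eq_three.1 b
    have hS : (x, y, z) ∈ triples (syms n) := mem_triples hE ht
      ⟨Or.inl (a (by simp)), Or.inl (a (by simp)), Or.inl (a (by simp))⟩
    refine ⟨[x, y, z], ?_, by simp⟩
    rw [iterate_succ_apply']
    refine List.mem_flatMap.2 ⟨((x, y, z), ((x, y, z), (x, y, z)), ((x, y, z), (x, y, z))),
      by simp only [descs, mem_prodL, hS, and_self], List.mem_append_left _ ?_⟩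
    have : (([x, y, z].all fun u => (cx E).2.1.contains u &&
        [x, y, z].all fun v => !rel (cx E).2.2 u v) &&
        (!(x == y) && (!(x == z) && !(y == z)))) = true := by
      simp only [Bool.and_eq_true, List.all_eq_true, List.contains_iff_mem, Bool.not_eq_true',
        beq_eq_false_iff_ne]
      refine ⟨fun u hu => ⟨?_, fun v hv => ?_⟩, hxy, hxz, hyz⟩
      · have : u ∈ Finset.range t := a (by simpa using hu)
        rw [Finset.mem_range] at this
        rw [hJ]; omega
      · exact Bool.eq_false_iff.2 (e u (by simpa using hu) v (by simpa using hv))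
    simp only [leaf, this, cond_true, List.mem_singleton]
  | node X Y hX hY hd hr hF ih ih' =>
    intro k hk
    rw [Finset.card_union_of_disjoint hd] at hk
    have h1 := der_card hX
    have h2 := der_card hY
    obtain ⟨k, rfl⟩ : ∃ j, k = j + 1 := ⟨k - 1, by omega⟩
    obtain ⟨o1, ho1, e1⟩ := ih k (by omega)
    obtain ⟨o2, ho2, e2⟩ := ih' k (by omega)
    obtain ⟨D, hD, eD⟩ := fam_desc hE ht hF
    have hok : okJoin (cx E, D) o1 o2 = true := by
      simp only [okJoin, Bool.and_eq_true, List.all_eq_true, Bool.not_eq_true',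
        beq_eq_false_iff_ne, beq_iff_eq]
      refine ⟨fun v _ => ?_, fun u hu v hv => ⟨?_, ?_⟩⟩
      · rw [Bool.eq_iff_iff, ← eD]
        simp [e1, e2]
      · rintro rfl
        exact Finset.disjoint_left.1 hd ((e1 u).1 hv) ((e2 u).1 hu)
      · exact Bool.eq_false_iff.2 (hr u ((e2 u).1 hu) v ((e1 v).1 hv))
    have hs : (node (cx E) ((round (cx E, descs (syms n)))^[k] []) D).isSome := by
      unfold node
      rw [List.findSome?_isSome_iff]
      refine ⟨o1, ho1, ?_⟩
      rw [List.findSome?_isSome_iff]
      exact ⟨o2, ho2, by simp [hok]⟩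
    obtain ⟨o, ho⟩ := Option.isSome_iff_exists.1 hs
    refine ⟨o, ?_, fun v => ?_⟩
    · rw [iterate_succ_apply']
      exact List.mem_flatMap.2 ⟨D, hD, List.mem_append_right _ (Option.mem_toList.2 ho)⟩
    · obtain ⟨p1, hp1, p2, hp2, hk', rfl⟩ := node_some ho
      have g := good_join (good_iter _ k p1 hp1) (good_iter _ k p2 hp2) hk'
      simp only [okJoin, Bool.and_eq_true, List.all_eq_true, beq_iff_eq] at hk'
      by_cases hv : v ∈ (cx E).2.1
      · rw [eD, ← hk'.1 v hv]
        simp
      · refine iff_of_false (fun h => hv (g.2.1 v h)) fun h => hv ?_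
        have : v ∈ Finset.range t := Finset.union_subset h1.2 h2.2 h
        rw [Finset.mem_range] at this
        rw [hJ]; omega

theorem table_eq : table (cx E, descs (syms n)) =
    (round (cx E, descs (syms n)))^[n + n + n + 1] [] := by
  unfold table
  rw [List.foldl_const]
  simp [ctx, syms]

theorem covers_iff {o : List ℕ} : covers n (syms n) o = true ↔ ∀ v < n, v ∈ o := by
  simp only [covers, syms, List.all_eq_true, List.mem_range, Bool.or_eq_true, Bool.not_eq_true',
    List.contains_iff_mem, ← Bool.not_eq_true, Nat.blt_eq]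
  exact ⟨fun h v hv => (h v (by omega)).resolve_left (by omega),
    fun h v _ => (Nat.lt_or_ge v n).symm.imp (by omega) (h v)⟩

/-- every schedule of makespan `T ≤ n` gives a table entry of length `3 T` -/
theorem entry_of_schedule (hE : Acyclic E) (hn : 1 ≤ n) {τ : Fin n → ℕ} (hτ : IsSchedule E τ)
    {T : ℕ} (hT : ∀ v, τ v ≤ T) (hTn : T ≤ n) :
    ∃ o ∈ table (cx E, descs (syms n)), covers n (syms n) o = true ∧ o.length = 3 * T := by
  let σ : ℕ → ℕ := fun v => if h : v < n then τ ⟨v, h⟩ - 1 else 0
  have h1 : ∀ v < n, σ v < T := fun v hv => by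
    have := hτ.1 ⟨v, hv⟩
    have := hT ⟨v, hv⟩
    simp only [σ, hv, dif_pos]
    omega
  have h3 : ∀ t, ((Finset.range n).filter fun v => σ v = t).card ≤ 3 := fun t => by
    refine le_trans ?_ ((Finset.card_image_le (f := Fin.val)).trans (hτ.2.1 (t + 1)))
    refine Finset.card_le_card fun v hv => ?_
    rw [Finset.mem_filter, Finset.mem_range] at hv
    refine Finset.mem_image.2 ⟨⟨v, hv.1⟩, ?_, rfl⟩
    have := hτ.1 ⟨v, hv.1⟩
    have e := hv.2
    simp only [σ, hv.1, dif_pos] at e
    simp only [Finset.mem_filter, Finset.mem_univ, true_and]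
    omega
  have hle := pad_le h1 h3
  obtain ⟨σ', a, b, e⟩ := pad (3 * T - n) n σ (by omega) h1 h3
  have hp : (mc hE (3 * T) (by omega)).Perfect T σ' := by
    refine ⟨fun v hv => b v (Finset.mem_range.1 hv), e, fun u _ v _ h => ?_⟩
    obtain ⟨hu, hv, k⟩ := tg_fin E ((closure_spec E).1 u v h)
    have key : ∀ x y : Fin n, Relation.TransGen (fun a b => E a b = true) x y → τ x < τ y := by
      intro x y h
      induction h with
      | single h => exact hτ.2.2 _ _ h
      | tail _ h ih => exact ih.trans (hτ.2.2 _ _ h)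
    have := key _ _ k
    have := hτ.1 ⟨u, hu⟩
    rw [a u hu, a v hv]
    simp only [σ, hu, hv, dif_pos]
    omega
  obtain ⟨o, ho, eo⟩ := der_table hE _ (Ctx.der_of_perfect hp (by omega)) (n + n + n + 1)
    (by simp [mc]; omega)
  refine ⟨o, table_eq ▸ ho, covers_iff.2 fun v hv => (eo v).2 (Finset.mem_range.2 (by omega)), ?_⟩
  have hnd := (good_iter _ _ o ho).1
  rw [← List.toFinset_card_of_nodup hnd,
    show o.toFinset = Finset.range (3 * T) from Finset.ext fun v => by
      rw [List.mem_toFinset]; exact eo v]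
  simp

theorem best_spec (hn : 1 ≤ n) (tb : List (List ℕ)) {o : List ℕ} (ho : o ∈ tb)
    (hc : covers n (syms n) o = true) :
    best n (syms n) tb ∈ tb ∧ covers n (syms n) (best n (syms n) tb) = true ∧
      (best n (syms n) tb).length ≤ o.length := by
  have key : ∀ l : List (List ℕ), (best n (syms n) l = [] ∨
      (best n (syms n) l ∈ l ∧ covers n (syms n) (best n (syms n) l) = true)) ∧
      ∀ o ∈ l, covers n (syms n) o = true →
        best n (syms n) l ≠ [] ∧ (best n (syms n) l).length ≤ o.length := by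
    intro l
    induction l using List.reverseRecOn with
    | nil => simp [best]
    | append_singleton l x ih =>
      have e : best n (syms n) (l ++ [x]) = bif covers n (syms n) x &&
          ((best n (syms n) l).isEmpty || Nat.blt x.length (best n (syms n) l).length) then x
          else best n (syms n) l := by
        simp only [best, List.foldl_append, List.foldl_cons, List.foldl_nil]
      rw [e, Bool.cond_eq_ite]
      simp only [Bool.and_eq_true, Bool.or_eq_true, List.isEmpty_iff, Nat.blt_eq]
      split_ifs with h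
      · have hx : x ≠ [] := List.ne_nil_of_mem (covers_iff.1 h.1 0 hn)
        refine ⟨Or.inr ⟨by simp, h.1⟩, fun o ho hc => ⟨hx, ?_⟩⟩
        rcases List.mem_append.1 ho with ho | ho
        · have := ih.2 o ho hc
          rcases h.2 with k | k
          · exact absurd k this.1
          · omega
        · rw [List.mem_singleton.1 ho]
      · refine ⟨ih.1.imp id fun k => ⟨List.mem_append_left _ k.1, k.2⟩, fun o ho hc => ?_⟩
        rcases List.mem_append.1 ho with ho | ho
        · exact ih.2 o ho hc
        · rw [List.mem_singleton.1 ho] at hc ⊢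
          push Not at h
          exact h hc
  obtain ⟨k1, k2⟩ := key tb
  obtain ⟨k3, k4⟩ := k2 o ho hc
  exact ⟨(k1.resolve_left k3).1, (k1.resolve_left k3).2, k4⟩

theorem exists_schedule (hE : Acyclic E) : ∃ τ : Fin n → ℕ, IsSchedule E τ ∧ ∀ v, τ v ≤ n := by
  let c := mc hE 0 (by omega)
  let τ : Fin n → ℕ := fun v => (Finset.univ.filter fun u : Fin n => c.π u ≤ c.π v).card
  have hlt : ∀ u v : Fin n, c.π u < c.π v → τ u < τ v := by
    intro u v h
    refine Finset.card_lt_card ⟨fun x hx => ?_, fun hs => ?_⟩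
    · simp only [Finset.mem_filter, Finset.mem_univ, true_and] at hx ⊢
      exact hx.trans h.le
    · have := hs (Finset.mem_filter.2 ⟨Finset.mem_univ v, le_rfl⟩)
      exact absurd (Finset.mem_filter.1 this).2 (not_le.2 h)
  refine ⟨τ, ⟨fun v => Finset.card_pos.2 ⟨v, by simp⟩, fun t => ?_, fun u v h => ?_⟩, fun v => ?_⟩
  · refine le_trans (Finset.card_le_one.2 fun a ha b hb => ?_) (by omega)
    simp only [Finset.mem_filter, Finset.mem_univ, true_and] at ha hb
    rcases lt_trichotomy (c.π a) (c.π b) with k | k | k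
    · have := hlt a b k; omega
    · exact Fin.ext (c.inj k)
    · have := hlt b a k; omega
  · exact hlt u v (c.mono ((closure_spec E).2.1 u v ⟨u.2, v.2, h⟩))
  · exact (Finset.card_le_univ _).trans (by simp)

theorem out_eq (o : List ℕ) :
    out n (syms n) o = listCode (List.ofFn fun v : Fin n => o.idxOf v.1 / 3 + 1) := by
  have e : (syms n).filter (fun v => Nat.blt v n) = List.range n := by
    unfold syms
    rw [show n + n + n + 1 = n + (n + n + 1) by omega, List.range_add, List.filter_append,
      List.filter_eq_self.2 (by simp [Nat.blt_eq]), List.filter_eq_nil_iff.2 (by simp [Nat.blt_eq])]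
    simp
  rw [out, e, listCode, ofFn_eq_map_range _ (fun v => o.idxOf v / 3 + 1) fun _ => rfl]
  simp [List.flatMap, div3, Function.comp_def]

theorem alg_correct (hn : 1 ≤ n) (hE : Acyclic E) :
    ∃ τ : Fin n → ℕ, alg (precCode n E) = listCode (List.ofFn τ) ∧ IsSchedule E τ ∧
      ∀ τ' : Fin n → ℕ, IsSchedule E τ' → Finset.univ.sup τ ≤ Finset.univ.sup τ' := by
  have e1 : alg (precCode n E) =
      out n (syms n) (best n (syms n) (table (cx E, descs (syms n)))) := by
    unfold alg
    rw [numJ_eq]
    have : (precCode n E).drop (natCode n).length = (rowsOf E).flatten := by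
      simp [precCode, rowsOf]
    rw [this]; rfl
  obtain ⟨τ0, h0, h0'⟩ := exists_schedule hE
  obtain ⟨o0, a0, b0, c0⟩ := entry_of_schedule hE hn h0 h0' le_rfl
  obtain ⟨k1, k2, k3⟩ := best_spec hn _ a0 b0
  have hb : ∀ o ∈ table (cx E, descs (syms n)), covers n (syms n) o = true →
      (best n (syms n) (table (cx E, descs (syms n)))).length ≤ o.length :=
    fun o a b => (best_spec hn _ a b).2.2
  rw [e1, out_eq]
  generalize best n (syms n) (table (cx E, descs (syms n))) = o at *
  have g : Good (cx E) o := good_iter (cx E, descs (syms n)) _ o (table_eq ▸ k1)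
  have hm := covers_iff.1 k2
  refine ⟨_, rfl, ⟨fun v => Nat.le_add_left _ _, fun t => ?_, fun u v h => ?_⟩, fun τ' h' => ?_⟩
  · refine (Finset.card_le_card_of_injOn (t := Finset.Ico (3 * (t - 1)) (3 * (t - 1) + 3))
      (fun v : Fin n => o.idxOf v.1) (fun v hv => ?_) (fun u _ v _ h => ?_)).trans (by simp)
    · simp only [Finset.coe_filter, Finset.mem_univ, true_and, Set.mem_ofPred_eq] at hv
      simp only [Finset.coe_Ico, Set.mem_Ico]
      omega
    · exact Fin.ext ((List.idxOf_inj (hm u u.2)).1 h)
  · exact Nat.succ_lt_succ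
      (g.2.2.2 u (hm u u.2) v (hm v v.2) ((closure_spec E).2.1 u v ⟨u.2, v.2, h⟩))
  · have hlen : o.length ≤ 3 * Finset.univ.sup τ' := by
      rcases le_total (Finset.univ.sup τ') n with h | h
      · obtain ⟨o1, a1, b1, c1⟩ := entry_of_schedule hE hn h'
          (fun v => Finset.le_sup (Finset.mem_univ v)) h
        exact c1 ▸ hb o1 a1 b1
      · omega
    refine Finset.sup_le fun v _ => ?_
    have := List.idxOf_lt_length_of_mem (hm v v.2)
    omega

end inst

end Crest.Agent.R286
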