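import Crest.Agent.R286.Deg

/-!
# Row 286: natural numbers in unary  (helper94)
-/

set_option autoImplicit false
set_option linter.unusedSectionVars false

namespace Crest.Agent.R286

open Function Crest.Agent.Lib.PolyTime

/-- In this namespace numbers are written in unary. -/
scoped instance (priority := high) unary : Enc ℕ :=
  Enc.ofInj (fun n => List.replicate n ()) (fun a b h => by simpa using congrArg List.length h)

variable {α β γ δ : Type} [Enc α] [Enc β] [Enc γ] [Enc δ]

theorem esize_un (n : ℕ) : esize n = 2 * n + 1 := by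
  show esize (List.replicate n ()) = _
  induction n with
  | zero => rfl
  | succ n ih => rw [List.replicate_succ, esize_cons, ih, esize_unit]; omega

namespace Q
variable {d : ℕ}

theorem rep {f : α → ℕ} (hf : Q d f) : Q d fun a => List.replicate (f a) () :=
  hf.of_enc fun _ => rfl

theorem ulen {l : α → List Unit} (hl : Q d l) : Q d fun a => (l a).length :=
  hl.of_enc fun a => by
    show enc (List.replicate (l a).length ()) = _
    rw [← List.eq_replicate_of_mem (l := l a) (a := ()) fun _ _ => rfl]

@[fun_prop] theorem add {f g : α → ℕ} (hf : Q (d + 1) f) (hg : Q (d + 1) g) :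
    Q (d + 1) fun a => f a + g a := (hf.rep.append hg.rep).ulen.of_eq fun a => by simp

theorem succ {f : α → ℕ} (hf : Q d f) : Q d fun a => f a + 1 :=
  ((const ()).cons hf.rep).ulen.of_eq fun a => by simp

@[fun_prop] theorem length {l : α → List β} (hl : Q (d + 1) l) :
    Q (d + 1) fun a => (l a).length :=
  (foldr_grow (f := fun _ (_ : β) (c : ℕ) => c + 1) 2 hl (const 0) (succ (by fun_prop))
    (fun a x c => by simp only [esize_un]; omega)).of_eq fun a => by
      generalize l a = m
      induction m with
      | nil => rfl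
      | cons x m ih => simp [ih]

@[fun_prop] theorem drop {l : α → List β} {f : α → ℕ} (hf : Q (d + 1) f) (hl : Q (d + 1) l) :
    Q (d + 1) fun a => (l a).drop (f a) := (hl.dropLen hf.rep).of_eq fun a => by simp

@[fun_prop] theorem blt {f g : α → ℕ} (hf : Q (d + 1) f) (hg : Q (d + 1) g) :
    Q (d + 1) fun a => Nat.blt (f a) (g a) :=
  (hf.drop hg.rep).isEmpty.bnot.of_eq fun a => by
    rw [Bool.eq_iff_iff]; simp [Nat.blt_eq]; omega

@[fun_prop] theorem natCode {f : α → ℕ} (hf : Q (d + 2) f) :
    Q (d + 2) fun a => Crest.Enc.natCode (f a) := hf.rep.natCodeLen.of_eq fun a => by simp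

@[fun_prop] theorem idxOf [BEq β] [LawfulBEq β] {f : α → β} {l : α → List β}
    (hf : Q (d + 1) f) (hl : Q (d + 2) l) : Q (d + 2) fun a => (l a).idxOf (f a) :=
  (foldr_grow (f := fun a (x : β) (c : ℕ) => bif x == f a then 0 else c + 1) 2 hl (const 0)
    (by fun_prop) (fun a x c => by cases x == f a <;> simp [esize_un] <;> omega)).of_eq fun a => by
      generalize l a = m
      induction m with
      | nil => rfl
      | cons x m ih => rw [List.foldr_cons, ih, List.idxOf_cons]

end Q

/-- division by three -/
def div3 (n : ℕ) : ℕ := n / 3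

@[fun_prop] theorem Q.div3 {d : ℕ} {f : α → ℕ} (hf : Q (d + 2) f) :
    Q (d + 2) fun a => div3 (f a) :=
  (Q.foldr_grow (ini := fun _ => ((0 : ℕ), (0 : ℕ)))
    (f := fun _ (_ : Unit) (c : ℕ × ℕ) => bif c.1 == 2 then (0, c.2 + 1) else (c.1 + 1, c.2)) 2
    hf.rep (Q.const _) (by fun_prop) (fun a x c => by
      rw [esize_prod c]
      cases c.1 == 2 <;> simp [esize_un] <;> omega)).snd.of_eq fun a => by
      have : ∀ n : ℕ, (List.replicate n ()).foldr
          (fun (_ : Unit) (c : ℕ × ℕ) => bif c.1 == 2 then (0, c.2 + 1) else (c.1 + 1, c.2))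
          (0, 0) = (n % 3, n / 3) := by
        intro n
        induction n with
        | zero => rfl
        | succ n ih =>
          rw [List.replicate_succ, List.foldr_cons, ih]
          by_cases h : n % 3 = 2
          · simp only [h, beq_self_eq_true, cond_true, Prod.mk.injEq]; omega
          · have : (n % 3 == 2) = false := by simpa using h
            simp only [this, cond_false, Prod.mk.injEq]; omega
      rw [this]; rfl

/-- drop `u * n` elements -/
def dropMul {β : Type} (l : List β) (u n : ℕ) : List β := l.drop (u * n)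

@[fun_prop] theorem Q.dropMul {d : ℕ} {l : α → List β} {f g : α → ℕ} (hl : Q (d + 2) l)
    (hf : Q (d + 2) f) (hg : Q (d + 1) g) : Q (d + 2) fun a => dropMul (l a) (f a) (g a) :=
  (Q.foldr_grow (f := fun a (_ : Unit) (c : List β) => c.drop (g a)) 0 hf.rep hl (by fun_prop)
    (fun a x c => by have := esize_sublist (List.drop_sublist (g a) c); omega)).of_eq fun a => by
      unfold R286.dropMul
      generalize f a = n
      induction n with
      | zero => simp
      | succ n ih => rw [List.replicate_succ, List.foldr_cons, ih]; simp [Nat.succ_mul]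

theorem range_deg : TD 6 (fun n : ℕ => List.range n) ∧ SD 2 (fun n : ℕ => List.range n) := by
  have key : ∀ n : ℕ, (List.replicate n ()).foldl
      (fun (c : ℕ × List ℕ) (_ : Unit) => (c.1 + 1, c.2 ++ [c.1])) (0, []) = (n, List.range n) := by
    intro n
    induction n with
    | zero => rfl
    | succ n ih => rw [List.replicate_succ', List.foldl_append, ih, List.range_succ]; rfl
  have hs : ∀ i n : ℕ, i ≤ n → esize (List.range i) ≤ esize n * esize n + 1 := by
    intro i n h
    have := esize_list_le (l := List.range i) (B := 2 * n) fun a ha => by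
      rw [List.mem_range] at ha; rw [esize_un]; omega
    rw [List.length_range] at this
    rw [esize_un]
    nlinarith
  have hB : Bd 2 fun n : ℕ => esize n * esize n + 1 := (SD.id'.mul SD.id').add (Bd.const 1)
  have hB' : Bd 2 fun n : ℕ => esize n + (esize n * esize n + 1) + 1 :=
    (Bd.esize.add hB).add (Bd.const 1)
  have h := TD.foldl (d := 1) (k := 6) (s := 1) (l := fun n : ℕ => List.replicate n ())
    (ini := fun _ => ((0 : ℕ), ([] : List ℕ)))
    (f := fun _ (c : ℕ × List ℕ) (_ : Unit) => (c.1 + 1, c.2 ++ [c.1])) _ (Q.id'.rep).1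
    ((Q.id' (d := 0)).rep.2.up (by omega)) (Q.const _).1 (show Q 1 _ by fun_prop).1 hB'
    (by omega) (fun n i => by
      rw [List.take_replicate, key, esize_pair]
      have := hs _ n (min_le_right i n)
      have := min_le_right i n
      simp only [esize_un] at *
      omega)
  refine ⟨((Q.snd' (d := 0)).1.comp h (s := 2) (hB'.mono fun n => ?_) (by omega)).of_eq
    fun n => by rw [key], hB.mono fun n => hs n n le_rfl⟩
  have := hs n n le_rfl
  simp only [key, esize_pair]
  omega

/-- time degree `K + 1` and size degree `s` -/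
def PK (K s : ℕ) (f : α → β) : Prop := TD K f ∧ SD s f

theorem PK.comp {K s d e : ℕ} {f : β → γ} {g : α → β} (hf : TD d f ∧ SD e f) (hg : PK K s g)
    (h : s * (d + 1) ≤ K + 1) : PK K (s * e) fun a => f (g a) :=
  ⟨hf.1.comp hg.1 hg.2 h, hf.2.comp hg.2⟩

theorem PK.up {K s s' : ℕ} {f : α → β} (hf : PK K s f) (h : s ≤ s') : PK K s' f :=
  ⟨hf.1, hf.2.up h⟩

theorem PK.pair {K s : ℕ} {f : α → β} {g : α → γ} (hf : PK K s f) (hg : PK K s g) :
    PK K s fun a => (f a, g a) := ⟨hf.1.pair hg.1, hf.2.pair hg.2⟩

theorem Q.pk {K d : ℕ} {f : α → β} (hf : Q d f) (h : d ≤ K) : PK K 1 f := hf.up h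

/-- undo the doubling and reversal of the input -/
def undbl (y : List Bool) : List Bool :=
  (y.foldl (fun (s : Bool × List Bool) b => bif s.1 then (false, s.2) else (true, b :: s.2))
    (false, [])).2

theorem undbl_q {d : ℕ} : Q (d + 1) undbl :=
  (Q.foldl_grow (l := fun y : List Bool => y) (ini := fun _ => (false, ([] : List Bool)))
    (f := fun _ (s : Bool × List Bool) b => bif s.1 then (false, s.2) else (true, b :: s.2)) 4
    (by fun_prop) (by fun_prop) (by fun_prop) (fun a c x => by
      have := esize_bool_le true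
      have := esize_bool_le false
      rw [esize_prod c]
      cases c.1 <;> simp <;> omega)).snd

theorem undbl_eq (x : List Bool) : undbl (x.flatMap fun g => [g, g]).reverse = x := by
  have : ∀ x : List Bool, (x.flatMap fun g => [g, g]).reverse.foldl
      (fun (s : Bool × List Bool) b => bif s.1 then (false, s.2) else (true, b :: s.2))
      (false, []) = (false, x) := by
    intro x
    induction x with
    | nil => rfl
    | cons g x ih =>
      rw [List.flatMap_cons, List.reverse_append, List.foldl_append, ih]
      rfl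
  unfold undbl
  rw [this]

theorem TD.timeBound {K e : ℕ} {f : List Bool → List Bool} (hf : TD K f) (h1 : 1 ≤ K)
    (he : K + 1 ≤ e) : ∃ C : ℕ, Crest.DTime.TimeBound f (fun L => C * (L + 2) ^ e + C) := by
  have h := hf.compQ (undbl_q (d := 0) |>.up h1)
  obtain ⟨D, hD⟩ := h.sd
  obtain ⟨t, ⟨C, ht⟩, h⟩ := h
  have hb : ∀ x : List Bool, esize (x.flatMap fun g => [g, g]).reverse ^ (K + 1) ≤
      8 ^ (K + 1) * (x.length + 2) ^ e := by
    intro x
    have h1 := esize_boolList_le (x.flatMap fun g => [g, g]).reverse
    have hl : (x.flatMap fun g => [g, g]).reverse.length = 2 * x.length := by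
      simp [List.length_flatMap, Nat.mul_comm]
    calc _ ≤ (8 * (x.length + 2)) ^ (K + 1) := Nat.pow_le_pow_left (by omega) _
      _ = 8 ^ (K + 1) * (x.length + 2) ^ (K + 1) := mul_pow _ _ _
      _ ≤ _ := Nat.mul_le_mul_left _ (Nat.pow_le_pow_right (by omega) he)
  generalize 8 ^ (K + 1) = M at hb
  have h2 := timeBoundComputable_of_TC (Computability.encodingList Bool).encode
    (Computability.encodingList Bool).encode f id id
    (fun x => t (x.flatMap fun g => [g, g]).reverse) (fun L => (C + 9 * D) * M * (L + 2) ^ e)
    ((TC.reindex h fun x : List Bool => (x.flatMap fun g => [g, g]).reverse).congr (fun _ => rfl)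
      (fun x => by simp only [undbl_eq]; rfl)) (fun x => by
      have a1 := ht (x.flatMap fun g => [g, g]).reverse
      have a2 := hD (x.flatMap fun g => [g, g]).reverse
      simp only [undbl_eq] at a2
      have a3 := length_lt_esize (f x)
      have a4 := hb x
      show _ + 9 * (f x).length ≤ (C + 9 * D) * M * (x.length + 2) ^ e
      have a5 := Nat.mul_le_mul_left C a4
      have a6 := Nat.mul_le_mul_left D a4
      nlinarith)
  refine ⟨(C + 9 * D) * M + 15, timeBoundComputable_mono h2 fun n => ?_⟩
  have : n + 2 ≤ (n + 2) ^ e := Nat.le_self_pow (by omega) _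
  nlinarith

end Crest.Agent.R286
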